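import Mathlib

/-!
Product laws on functions on a finite set.
-/

namespace Vale.Agent.P050.R2.H901

open Finset

variable {V X : Type} [Fintype V] [DecidableEq V] [Fintype X]

/-- weight of a function -/
def wt (μ : V → X → ℝ) (x : V → X) : ℝ := ∏ v, μ v (x v)

/-- `G` depends only on the coordinates in `T` -/
def Dep (T : Finset V) (G : (V → X) → ℝ) : Prop := ∀ x x' : V → X, (∀ v ∈ T, x v = x' v) → G x = G x'

omit [DecidableEq V] [Fintype X] in
theorem wt_nonneg {μ : V → X → ℝ} (hμ : ∀ v x, 0 ≤ μ v x) (x : V → X) : 0 ≤ wt μ x :=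
  prod_nonneg fun _ _ => hμ _ _

theorem sum_wt {μ : V → X → ℝ} : ∑ x : V → X, wt μ x = ∏ v, ∑ ξ, μ v ξ := by
  unfold wt
  rw [Finset.prod_univ_sum, Fintype.piFinset_univ]

theorem sum_wt_one {μ : V → X → ℝ} (h : ∀ v, ∑ ξ, μ v ξ = 1) : ∑ x : V → X, wt μ x = 1 := by
  rw [sum_wt]
  simp [h]

/-- exchange of the coordinates outside `T` -/
def mix (T : Finset V) : ((V → X) × (V → X)) ≃ ((V → X) × (V → X)) where
  toFun p := (fun v => if v ∈ T then p.1 v else p.2 v, fun v => if v ∈ T then p.2 v else p.1 v)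
  invFun p := (fun v => if v ∈ T then p.1 v else p.2 v, fun v => if v ∈ T then p.2 v else p.1 v)
  left_inv p := by
    refine Prod.ext (funext fun v => ?_) (funext fun v => ?_) <;> by_cases h : v ∈ T <;> simp [h]
  right_inv p := by
    refine Prod.ext (funext fun v => ?_) (funext fun v => ?_) <;> by_cases h : v ∈ T <;> simp [h]

omit [Fintype X] in
theorem wt_mix (μ : V → X → ℝ) (T : Finset V) (p : (V → X) × (V → X)) :
    wt μ (mix T p).1 * wt μ (mix T p).2 = wt μ p.1 * wt μ p.2 := by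
  unfold wt
  rw [← Finset.prod_mul_distrib, ← Finset.prod_mul_distrib]
  refine Finset.prod_congr rfl fun v _ => ?_
  simp only [mix, Equiv.coe_fn_mk]
  by_cases h : v ∈ T
  · simp only [h, if_true]
  · simp only [h, if_false]
    ring

/-- independence -/
theorem indep' (μ : V → X → ℝ) {T T' : Finset V} (hT : Disjoint T T') {G G' : (V → X) → ℝ}
    (hG : Dep T G) (hG' : Dep T' G') :
    (∑ x, wt μ x * (G x * G' x)) * (∑ x, wt μ x) = (∑ x, wt μ x * G x) * ∑ x, wt μ x * G' x := by
  rw [Finset.sum_mul_sum, Finset.sum_mul_sum, ← Finset.sum_product', ← Finset.sum_product',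
    Finset.univ_product_univ]
  rw [← Equiv.sum_comp (mix (X := X) T)
    (fun p : (V → X) × (V → X) => wt μ p.1 * G p.1 * (wt μ p.2 * G' p.2))]
  refine Finset.sum_congr rfl fun p _ => ?_
  have h1 : G (mix T p).1 = G p.1 := hG _ _ fun v hv => by simp [mix, hv]
  have h2 : G' (mix T p).2 = G' p.1 := hG' _ _ fun v hv => by
    have : v ∉ T := fun h => (Finset.disjoint_left.1 hT h hv).elim
    simp [mix, this]
  rw [h1, h2, show wt μ (mix T p).1 * G p.1 * (wt μ (mix T p).2 * G' p.1)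
    = (wt μ (mix T p).1 * wt μ (mix T p).2) * (G p.1 * G' p.1) by ring, wt_mix]
  ring

theorem indep {μ : V → X → ℝ} (h : ∀ v, ∑ ξ, μ v ξ = 1) {T T' : Finset V} (hT : Disjoint T T')
    {G G' : (V → X) → ℝ} (hG : Dep T G) (hG' : Dep T' G') :
    ∑ x, wt μ x * (G x * G' x) = (∑ x, wt μ x * G x) * ∑ x, wt μ x * G' x := by
  have := indep' μ hT hG hG'
  rwa [sum_wt_one h, mul_one] at this

omit [Fintype V] [Fintype X] [DecidableEq V] in
theorem Dep.mono {T T' : Finset V} (h : T ⊆ T') {G : (V → X) → ℝ} (hG : Dep T G) : Dep T' G :=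
  fun x x' hx => hG x x' fun v hv => hx v (h hv)

omit [Fintype V] [Fintype X] [DecidableEq V] in
theorem Dep.mul {T : Finset V} {G G' : (V → X) → ℝ} (hG : Dep T G) (hG' : Dep T G') :
    Dep T fun x => G x * G' x := fun x x' hx => by
  simp only
  rw [hG x x' hx, hG' x x' hx]

omit [Fintype V] [Fintype X] in
theorem Dep.prod {ι : Type} [DecidableEq ι] {I : Finset ι} {T : ι → Finset V}
    {G : ι → (V → X) → ℝ} (hG : ∀ i ∈ I, Dep (T i) (G i)) :
    Dep (I.biUnion T) fun x => ∏ i ∈ I, G i x := fun x x' hx => by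
  refine Finset.prod_congr rfl fun i hi => hG i hi x x' fun v hv => hx v ?_
  exact Finset.mem_biUnion.2 ⟨i, hi, hv⟩

/-- independence of a family -/
theorem indep_prod {μ : V → X → ℝ} (h : ∀ v, ∑ ξ, μ v ξ = 1) {ι : Type} [DecidableEq ι]
    (I : Finset ι) {T : ι → Finset V} {G : ι → (V → X) → ℝ} (hG : ∀ i ∈ I, Dep (T i) (G i))
    (hT : ∀ i ∈ I, ∀ j ∈ I, i ≠ j → Disjoint (T i) (T j)) :
    ∑ x, wt μ x * ∏ i ∈ I, G i x = ∏ i ∈ I, ∑ x, wt μ x * G i x := by
  induction I using Finset.induction_on with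
  | empty => simp [sum_wt_one h]
  | insert a s ha ih =>
    simp only [Finset.prod_insert ha]
    rw [indep h (T := T a) (T' := s.biUnion T) ?_ (hG a (mem_insert_self _ _))
      (Dep.prod fun i hi => hG i (mem_insert_of_mem hi)), ih
      (fun i hi => hG i (mem_insert_of_mem hi))
      (fun i hi j hj => hT i (mem_insert_of_mem hi) j (mem_insert_of_mem hj))]
    rw [Finset.disjoint_biUnion_right]
    intro i hi
    exact hT a (mem_insert_self _ _) i (mem_insert_of_mem hi) fun e => ha (e ▸ hi)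

open Classical in
theorem sum_wt_single {μ : V → X → ℝ} (h : ∀ v, ∑ ξ, μ v ξ = 1) (v : V) (ξ : X) :
    ∑ x : V → X, wt μ x * (if x v = ξ then 1 else 0) = μ v ξ := by
  have e : ∀ x : V → X, wt μ x * (if x v = ξ then 1 else 0)
      = wt (Function.update μ v (fun ζ => if ζ = ξ then μ v ζ else 0)) x := by
    intro x
    unfold wt
    rw [← Finset.mul_prod_erase univ _ (mem_univ v), ← Finset.mul_prod_erase univ
      (fun w => Function.update μ v (fun ζ => if ζ = ξ then μ v ζ else 0) w (x w)) (mem_univ v)]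
    have e2 : ∏ w ∈ univ.erase v, Function.update μ v (fun ζ => if ζ = ξ then μ v ζ else 0) w (x w)
        = ∏ w ∈ univ.erase v, μ w (x w) := by
      refine Finset.prod_congr rfl fun w hw => ?_
      rw [Function.update_of_ne (Finset.ne_of_mem_erase hw)]
    rw [e2, Function.update_self]
    split_ifs <;> ring
  simp_rw [e]
  rw [sum_wt, ← Finset.mul_prod_erase univ _ (mem_univ v)]
  have e2 : ∏ w ∈ univ.erase v,
      ∑ ζ, Function.update μ v (fun ζ => if ζ = ξ then μ v ζ else 0) w ζ = 1 := by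
    refine Finset.prod_eq_one fun w hw => ?_
    rw [Function.update_of_ne (Finset.ne_of_mem_erase hw), h]
  rw [e2, Function.update_self]
  simp

/-- marginal law under an injection -/
theorem marg {μ : V → X → ℝ} (h : ∀ v, ∑ ξ, μ v ξ = 1) {ι : Type} [Fintype ι] [DecidableEq ι]
    {κ : ι → V} (hκ : Function.Injective κ) (g : (ι → X) → ℝ) :
    ∑ x : V → X, wt μ x * g (fun i => x (κ i)) = ∑ ρ : ι → X, (∏ i, μ (κ i) (ρ i)) * g ρ := by
  classical
  have e : ∀ x : V → X, g (fun i => x (κ i))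
      = ∑ ρ : ι → X, g ρ * ∏ i, (if x (κ i) = ρ i then (1 : ℝ) else 0) := by
    intro x
    rw [Finset.sum_eq_single (fun i => x (κ i))]
    · simp
    · intro ρ _ hρ
      obtain ⟨i, hi⟩ := Function.ne_iff.1 hρ
      rw [Finset.prod_eq_zero (mem_univ i), mul_zero]
      rw [if_neg]
      exact fun h => hi h.symm
    · intro h
      exact absurd (mem_univ _) h
  simp_rw [e, Finset.mul_sum]
  rw [Finset.sum_comm]
  refine Finset.sum_congr rfl fun ρ _ => ?_
  have e2 : ∀ x : V → X, wt μ x * (g ρ * ∏ i, (if x (κ i) = ρ i then (1 : ℝ) else 0))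
      = g ρ * (wt μ x * ∏ i, (if x (κ i) = ρ i then (1 : ℝ) else 0)) := fun x => by ring
  simp_rw [e2]
  have key := indep_prod h (univ : Finset ι) (T := fun i => {κ i})
    (G := fun i (x : V → X) => if x (κ i) = ρ i then (1 : ℝ) else 0)
    (fun i _ x x' hx => by
      simp only
      rw [hx (κ i) (mem_singleton_self _)])
    (fun i _ j _ hij => by
      rw [Finset.disjoint_singleton]
      exact fun e => hij (hκ e))
  rw [← Finset.mul_sum, key, mul_comm]
  congr 1
  refine Finset.prod_congr rfl fun i _ => ?_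
  exact sum_wt_single h (κ i) (ρ i)

/-- Jensen's inequality for the logarithm -/
theorem jensen {Ω : Type} [Fintype Ω] {q u : Ω → ℝ} (hq : ∀ ω, 0 ≤ q ω) (hq1 : ∑ ω, q ω = 1)
    (hu : ∀ ω, q ω ≠ 0 → 0 < u ω) :
    0 < ∑ ω, q ω * u ω ∧ ∑ ω, q ω * Real.log (u ω) ≤ Real.log (∑ ω, q ω * u ω) := by
  classical
  have hnn : ∀ ω, 0 ≤ q ω * u ω := fun ω => by
    by_cases h : q ω = 0
    · simp [h]
    · exact mul_nonneg (hq ω) (hu ω h).le
  have hpos : 0 < ∑ ω, q ω * u ω := by
    obtain ⟨ω, hω⟩ : ∃ ω, q ω ≠ 0 := by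
      by_contra hh
      have hh' : ∀ ω, q ω = 0 := fun ω => by
        by_contra h0
        exact hh ⟨ω, h0⟩
      simp [hh'] at hq1
    refine lt_of_lt_of_le (mul_pos (lt_of_le_of_ne (hq ω) (Ne.symm hω)) (hu ω hω)) ?_
    exact Finset.single_le_sum (f := fun ω => q ω * u ω) (fun ω _ => hnn ω) (mem_univ ω)
  refine ⟨hpos, ?_⟩
  set S := ∑ ω, q ω * u ω with hS
  have key : ∀ ω, q ω * Real.log (u ω) ≤ q ω * Real.log S + (q ω * u ω / S - q ω) := by
    intro ω
    by_cases h : q ω = 0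
    · simp [h]
    · have h1 := Real.log_le_sub_one_of_pos (div_pos (hu ω h) hpos)
      rw [Real.log_div (hu ω h).ne' hpos.ne'] at h1
      have h2 := mul_le_mul_of_nonneg_left h1 (hq ω)
      have e : q ω * (u ω / S - 1) = q ω * u ω / S - q ω := by ring
      rw [e, mul_sub] at h2
      linarith
  refine (Finset.sum_le_sum fun ω _ => key ω).trans ?_
  rw [Finset.sum_add_distrib, ← Finset.sum_mul, hq1, one_mul, Finset.sum_sub_distrib,
    ← Finset.sum_div, ← hS, div_self hpos.ne', hq1]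
  simp

end Vale.Agent.P050.R2.H901
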