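import Vale.Agent.P050.R2.H901.Core2
import Vale.Agent.P050.R2.H128.WKer2
import Vale.Agent.P050.R2.H128.Hyp

/-!
The main inequality with acyclic arms, proved.
-/

namespace Vale.Agent.P050.R2.H901

open Finset

/-- overlapping arms, indexed by a finite set with a rank -/
theorem hypStmt : HypStmt := by
  intro V X B _ _ _ _ μ ε k I f κ u h0 h1 hk hu hs hi hf hr
  classical
  set s : Finset ℕ := I.image f with hsdef
  have hcard : s.card = I.card := Finset.card_image_of_injOn fun b hb b' hb' e =>
    hf b hb b' hb' e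
  have hex : ∀ i : Fin I.card, ∃ b ∈ I, f b = s.orderEmbOfFin hcard i := fun i =>
    Finset.mem_image.1 (s.orderEmbOfFin_mem hcard i)
  choose bb hbI hbf using hex
  have hmono : ∀ i j, i < j ↔ f (bb i) < f (bb j) := by
    intro i j
    rw [hbf, hbf]
    exact (s.orderEmbOfFin hcard).lt_iff_lt.symm
  have hinj : Function.Injective bb := by
    intro i j e
    have h := congrArg f e
    rw [hbf, hbf] at h
    exact (s.orderEmbOfFin hcard).injective h
  have himg : univ.image bb = I := by
    refine Finset.eq_of_subset_of_card_le (fun b hb => ?_) ?_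
    · obtain ⟨i, _, rfl⟩ := Finset.mem_image.1 hb
      exact hbI i
    · rw [Finset.card_image_of_injective _ hinj, card_univ, Fintype.card_fin]
  have hsurj : ∀ b ∈ I, ∃ i, bb i = b := by
    intro b hb
    rw [← himg] at hb
    obtain ⟨i, _, h⟩ := Finset.mem_image.1 hb
    exact ⟨i, h⟩
  have key := H128.hyp μ ε (fun i : Fin I.card => κ (bb i)) u h0 h1 (fun i m => hk _ (hbI i) m)
    hu hs (fun i => hi _ (hbI i)) ?_
  · refine key.trans (le_of_eq ?_)
    refine Finset.sum_congr rfl fun x _ => ?_
    unfold wt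
    congr 1
    have h2 := Finset.prod_image (s := (univ : Finset (Fin I.card))) (g := bb)
      (f := fun b => u fun m => x (κ b m)) (fun i _ j _ e => hinj e)
    rw [himg] at h2
    exact h2.symm
  · intro i hi0
    have h0' : (⟨0, lt_of_le_of_lt (Nat.zero_le _) i.2⟩ : Fin I.card) < i := by
      rw [Fin.lt_def]
      exact hi0
    obtain ⟨b', hb', hlt, h⟩ := hr (bb i) (hbI i)
      ⟨bb ⟨0, lt_of_le_of_lt (Nat.zero_le _) i.2⟩, hbI _, (hmono _ _).1 h0'⟩
    obtain ⟨j, rfl⟩ := hsurj b' hb'
    exact ⟨j, (hmono _ _).2 hlt, fun l hl m m' e => h (bb l) (hbI l) ((hmono _ _).1 hl) m m' e⟩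

theorem core2 : CoreStmt2 := core_of2 hypStmt H128.sumStmt H128.k1Stmt H128.k2Stmt

theorem gnonneg2 : GNonneg := H128.gNonneg

end Vale.Agent.P050.R2.H901
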