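import Vale.Agent.P050.R2.H901.Star3
import Vale.Agent.P050.R2.H901.Asm2
import Vale.Agent.P050.R2.H128.Mono

/-!
The second main inequality, proved.
-/

namespace Vale.Agent.P050.R2.H901

theorem core5 : CoreStmt5 := core_of5 H128.k1Stmt H128.k2Stmt
  fun _ _ _ _ _ _ _ _ _ K h => H128.mono K h

end Vale.Agent.P050.R2.H901
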