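import Vale.Agent.P050.R2.H901.Defs3

/-!
Costs and gains when the degrees around the blocks are at most `D`.
-/

namespace Vale.Agent.P050.R2.H901

open Finset

variable {A B : Type} [Fintype A] [DecidableEq A] [Fintype B] [DecidableEq B]
  {N : B → Finset A} {b0 : B} {F : Finset A} {D : ℕ}

theorem rr_le {a : A} (ha : a ∉ N b0)
    (hdA : (univ.filter fun b => b ≠ b0 ∧ a ∈ N b).card ≤ D) : rr N a ≤ D := by
  unfold rr
  refine le_trans (Finset.card_le_card fun b hb => ?_) hdA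
  rw [Finset.mem_filter] at hb ⊢
  exact ⟨mem_univ _, fun e => ha (e ▸ hb.2), hb.2⟩

theorem qq_le {a : A} (ha : a ∉ N b0)
    (hdA : (univ.filter fun b => b ≠ b0 ∧ a ∈ N b).card ≤ D)
    (hdV : ∀ b v, a ∈ N b → v ∈ N b → (univ.filter fun b' => b' ≠ b0 ∧ v ∈ N b').card ≤ D)
    (hdB : ∀ b, a ∈ N b → (N b).card ≤ D) : qq N b0 a ≤ D * ((D - 1) * (D - 1)) := by
  have hsub : (univ.filter fun b => b ≠ b0 ∧ a ∉ N b ∧ ∃ b', a ∈ N b' ∧
      ¬ Disjoint (N b) (N b')) ⊆ (univ.filter fun b => a ∈ N b).biUnion fun b' =>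
      ((N b').erase a).biUnion fun v =>
        (univ.filter fun b => b ≠ b0 ∧ v ∈ N b).erase b' := by
    intro b hb
    obtain ⟨_, hb0, hab, b', hab', hd⟩ := Finset.mem_filter.1 hb
    obtain ⟨v, hv, hv'⟩ := Finset.not_disjoint_iff.1 hd
    refine Finset.mem_biUnion.2 ⟨b', Finset.mem_filter.2 ⟨mem_univ _, hab'⟩,
      Finset.mem_biUnion.2 ⟨v, Finset.mem_erase.2 ⟨fun e => hab (e ▸ hv), hv'⟩, ?_⟩⟩
    exact Finset.mem_erase.2 ⟨fun e => hab (e ▸ hab'),
      Finset.mem_filter.2 ⟨mem_univ _, hb0, hv⟩⟩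
  unfold qq
  refine (Finset.card_le_card hsub).trans ?_
  refine (Finset.card_biUnion_le_card_mul _ _ ((D - 1) * (D - 1)) fun b' hb' => ?_).trans
    (Nat.mul_le_mul_right _ (rr_le ha hdA))
  have hab' : a ∈ N b' := (Finset.mem_filter.1 hb').2
  have hb0' : b' ≠ b0 := fun e => ha (e ▸ hab')
  refine (Finset.card_biUnion_le_card_mul _ _ (D - 1) fun v hv => ?_).trans
    (Nat.mul_le_mul_right _ ?_)
  · have hv' := Finset.mem_of_mem_erase hv
    rw [Finset.card_erase_of_mem (Finset.mem_filter.2 ⟨mem_univ _, hb0', hv'⟩)]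
    exact Nat.sub_le_sub_right (hdV b' v hab' hv') 1
  · rw [Finset.card_erase_of_mem hab']
    exact Nat.sub_le_sub_right (hdB b' hab') 1

/-- the cost of the blocks -/
theorem KK_le (hoff : ∀ a ∈ F, a ∉ N b0) (hdeg : ∀ a ∈ F, ∀ b, a ∈ N b → (N b).card ≤ D)
    (hdF : ∀ a ∈ F, (univ.filter fun b => b ≠ b0 ∧ a ∈ N b).card ≤ D)
    (hdV : ∀ v ∈ Blk N F, (univ.filter fun b => b ≠ b0 ∧ v ∈ N b).card ≤ D) :
    KK N b0 F D ≤ F.card * (D * (1 + D * ((D - 1) * (D - 1)) + D * (D - 1))) := by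
  unfold KK
  rw [← smul_eq_mul, ← Finset.sum_const]
  refine Finset.sum_le_sum fun a ha => ?_
  have hr := rr_le (hoff a ha) (hdF a ha)
  have hq := qq_le (hoff a ha) (hdF a ha) (fun b v hab hv => hdV v
    (Finset.mem_biUnion.2 ⟨b, Finset.mem_filter.2 ⟨mem_univ _, a, ha, hab⟩, hv⟩)) (hdeg a ha)
  gcongr

/-- the number of vertices in the blocks -/
theorem Blk_le (hoff : ∀ a ∈ F, a ∉ N b0) (hdeg : ∀ a ∈ F, ∀ b, a ∈ N b → (N b).card ≤ D)
    (hdF : ∀ a ∈ F, (univ.filter fun b => b ≠ b0 ∧ a ∈ N b).card ≤ D) :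
    (Blk N F).card ≤ F.card * (1 + D * (D - 1)) := by
  have hsub : Blk N F ⊆ F.biUnion fun a => insert a
      ((univ.filter fun b => a ∈ N b).biUnion fun b => (N b).erase a) := by
    intro v hv
    obtain ⟨b, hb, hvb⟩ := Finset.mem_biUnion.1 hv
    obtain ⟨_, a, ha, hab⟩ := Finset.mem_filter.1 hb
    refine Finset.mem_biUnion.2 ⟨a, ha, ?_⟩
    rw [Finset.mem_insert]
    by_cases h : v = a
    · exact Or.inl h
    · exact Or.inr (Finset.mem_biUnion.2 ⟨b, Finset.mem_filter.2 ⟨mem_univ _, hab⟩,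
        Finset.mem_erase.2 ⟨h, hvb⟩⟩)
  refine (Finset.card_le_card hsub).trans (Finset.card_biUnion_le_card_mul _ _ _ fun a ha => ?_)
  refine (Finset.card_insert_le _ _).trans ?_
  rw [add_comm]
  refine Nat.add_le_add_left ((Finset.card_biUnion_le_card_mul _ _ (D - 1) fun b hb => ?_).trans
    (Nat.mul_le_mul_right _ (rr_le (hoff a ha) (hdF a ha)))) 1
  have hab : a ∈ N b := (Finset.mem_filter.1 hb).2
  rw [Finset.card_erase_of_mem hab]
  exact Nat.sub_le_sub_right (hdeg a ha b hab) 1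

/-- the gains lost near the blocks -/
theorem gam_ge (hdeg : ∀ a ∈ F, ∀ b, a ∈ N b → (N b).card ≤ D)
    (hdV : ∀ v ∈ Blk N F, (univ.filter fun b => b ≠ b0 ∧ v ∈ N b).card ≤ D) :
    ∑ b ∈ univ.erase b0, ((N b).card + 1 - D) ≤ gam N b0 F D + (Blk N F).card * D := by
  classical
  have h1 : ∀ b ∈ univ.erase b0, (N b).card + 1 - D ≤
      (if ∀ a ∈ F, a ∉ N b then (N b \ Blk N F).card + 1 - D else 0) + (N b ∩ Blk N F).card := by
    intro b hb
    by_cases hF : ∀ a ∈ F, a ∉ N b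
    · rw [if_pos hF]
      have := Finset.card_sdiff_add_card_inter (N b) (Blk N F)
      omega
    · rw [if_neg hF]
      obtain ⟨a, ha, hab⟩ : ∃ a ∈ F, a ∈ N b := by
        by_contra h
        exact hF fun a ha hab => h ⟨a, ha, hab⟩
      have h2 := hdeg a ha b hab
      have h3 : 1 ≤ (N b ∩ Blk N F).card := Finset.card_pos.2 ⟨a, Finset.mem_inter.2 ⟨hab,
        Finset.mem_biUnion.2 ⟨b, Finset.mem_filter.2 ⟨mem_univ _, a, ha, hab⟩, hab⟩⟩⟩
      omega
  refine (Finset.sum_le_sum h1).trans ?_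
  rw [Finset.sum_add_distrib]
  refine Nat.add_le_add (le_of_eq ?_) ?_
  · unfold gam
    rw [← Finset.sum_filter]
    refine Finset.sum_congr ?_ fun _ _ => rfl
    ext b
    simp only [Finset.mem_filter, Finset.mem_erase, mem_univ, true_and, and_true]
  · have h2 : ∀ b ∈ univ.erase b0, (N b ∩ Blk N F).card
        = ∑ v ∈ Blk N F, if v ∈ N b then 1 else 0 := by
      intro b _
      rw [Finset.inter_comm, Finset.card_eq_sum_ones, ← Finset.sum_filter,
        Finset.filter_mem_eq_inter]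
    rw [Finset.sum_congr rfl h2, Finset.sum_comm, ← smul_eq_mul, ← Finset.sum_const]
    refine Finset.sum_le_sum fun v hv => ?_
    rw [← Finset.sum_filter, ← Finset.card_eq_sum_ones]
    refine le_trans (Finset.card_le_card fun b hb => ?_) (hdV v hv)
    rw [Finset.mem_filter, Finset.mem_erase] at hb
    exact Finset.mem_filter.2 ⟨mem_univ _, hb.1.1, hb.2⟩

/-- a hub missing few vertices: the gains pay for the blocks -/
theorem KK_le_gam (hD : 2 ≤ D) (hoff : ∀ a ∈ F, a ∉ N b0)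
    (hdeg : ∀ a ∈ F, ∀ b, a ∈ N b → (N b).card ≤ D)
    (hdF : ∀ a ∈ F, (univ.filter fun b => b ≠ b0 ∧ a ∈ N b).card ≤ D)
    (hdV : ∀ v ∈ Blk N F, (univ.filter fun b => b ≠ b0 ∧ v ∈ N b).card ≤ D)
    (hm : D ^ 4 * F.card ≤ ∑ b ∈ univ.erase b0, ((N b).card + 1 - D)) :
    KK N b0 F D ≤ gam N b0 F D := by
  have h1 := KK_le hoff hdeg hdF hdV
  have h2 := Blk_le hoff hdeg hdF
  have h3 := gam_ge hdeg hdV
  obtain ⟨E, rfl⟩ : ∃ E, D = E + 2 := ⟨D - 2, by omega⟩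
  have h4 : E + 2 - 1 = E + 1 := by omega
  rw [h4] at h1 h2
  have h5 := Nat.mul_le_mul_right (E + 2) h2
  have h6 : F.card * ((E + 2) * (1 + (E + 2) * ((E + 1) * (E + 1)) + (E + 2) * (E + 1))) +
      F.card * (1 + (E + 2) * (E + 1)) * (E + 2) + F.card * ((E + 2) * E)
      = (E + 2) ^ 4 * F.card := by
    ring
  have h7 : 0 ≤ F.card * ((E + 2) * E) := Nat.zero_le _
  omega

end Vale.Agent.P050.R2.H901
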