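import Mathlib

/-!
Definitions for the hub law with tilted blocks.
`A`, `B`: the parts of `H`, `N b` the neighbourhood of `b`; `α`, `c`: weights; `W`: kernel.
-/

namespace Vale.Agent.P050.R2.H901

open Finset

section defs

variable {A B X Y : Type} [Fintype A] [DecidableEq A] [Fintype B] [DecidableEq B]
  [Fintype X] [Fintype Y]

/-- the mean -/
noncomputable def pp (α : X → ℝ) (c : Y → ℝ) (W : X → Y → ℝ) : ℝ := ∑ x, ∑ y, α x * c y * W x y

/-- the homomorphism density -/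
noncomputable def tt (α : X → ℝ) (c : Y → ℝ) (W : X → Y → ℝ) (N : B → Finset A) : ℝ :=
  ∑ x : A → X, (∏ i, α (x i)) * ∏ b, ∑ y, c y * ∏ i ∈ N b, W (x i) y

/-- degree -/
def rr (N : B → Finset A) (a : A) : ℕ := (univ.filter fun b => a ∈ N b).card

/-- number of vertices touching the block of `a` -/
def qq (N : B → Finset A) (b0 : B) (a : A) : ℕ :=
  (univ.filter fun b => b ≠ b0 ∧ a ∉ N b ∧ ∃ b', a ∈ N b' ∧ ¬ Disjoint (N b) (N b')).card

/-- number of free vertices of degree at least `D` -/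
def nf (N : B → Finset A) (b0 : B) (F : Finset A) (D : ℕ) : ℕ :=
  (univ.filter fun b => b ≠ b0 ∧ D ≤ (N b).card ∧
    ∀ a ∈ F, ∀ b', a ∈ N b' → Disjoint (N b) (N b')).card

/-- the cost of the blocks -/
def KK (N : B → Finset A) (b0 : B) (F : Finset A) (D : ℕ) : ℕ :=
  ∑ a ∈ F, rr N a * (1 + qq N b0 a + D * (rr N a - 1))

/-- conditions on the set `F` of centres of blocks -/
structure Blocks (N : B → Finset A) (b0 : B) (F : Finset A) (D : ℕ) : Prop where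
  hub : (N b0).Nonempty
  off : ∀ a ∈ F, a ∉ N b0
  deg : ∀ a ∈ F, ∀ b, a ∈ N b → (N b).card ≤ D
  arms : ∀ a ∈ F, ∀ b b', a ∈ N b → a ∈ N b' → b ≠ b' → ∀ v, v ∈ N b → v ∈ N b' → v = a
  apart : ∀ a ∈ F, ∀ a' ∈ F, a ≠ a' → ∀ b b', a ∈ N b → a' ∈ N b' → Disjoint (N b) (N b')

/-- row sums -/
noncomputable def dd (α : X → ℝ) (W : X → Y → ℝ) (y : Y) : ℝ := ∑ x, α x * W x y

/-- the law of `y` -/
noncomputable def mm (α : X → ℝ) (c : Y → ℝ) (W : X → Y → ℝ) (y : Y) : ℝ :=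
  c y * dd α W y / pp α c W

/-- the law of `x` given `y` -/
noncomputable def ee (α : X → ℝ) (W : X → Y → ℝ) (y : Y) (x : X) : ℝ := α x * W x y / dd α W y

/-- star law of `k` points -/
noncomputable def Pk (α : X → ℝ) (c : Y → ℝ) (W : X → Y → ℝ) {k : ℕ} (ρ : Fin k → X) : ℝ :=
  ∑ y, mm α c W y * ∏ j, ee α W y (ρ j)

/-- star law of `k + 1` points -/
noncomputable def Pk1 (α : X → ℝ) (c : Y → ℝ) (W : X → Y → ℝ) {k : ℕ} (ρ : Fin k → X) (x : X) : ℝ :=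
  ∑ y, mm α c W y * (∏ j, ee α W y (ρ j)) * ee α W y x

/-- density of a further point -/
noncomputable def ph (α : X → ℝ) (c : Y → ℝ) (W : X → Y → ℝ) {k : ℕ} (ρ : Fin k → X) (x : X) : ℝ :=
  Pk1 α c W ρ x / (Pk α c W ρ * α x)

/-- the information of a further point -/
noncomputable def gg (α : X → ℝ) (c : Y → ℝ) (W : X → Y → ℝ) (k : ℕ) : ℝ :=
  ∑ ρ : Fin k → X, ∑ x, Pk1 α c W ρ x * Real.log (ph α c W ρ x)

end defs

/-- the main inequality -/
def CoreStmt : Prop :=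
  ∀ (A B X Y : Type) [Fintype A] [DecidableEq A] [Fintype B] [DecidableEq B]
    [Fintype X] [Fintype Y] (α : X → ℝ) (c : Y → ℝ) (W : X → Y → ℝ) (N : B → Finset A) (b0 : B)
    (F : Finset A) (D : ℕ), (∀ x, 0 ≤ α x) → ∑ x, α x = 1 → (∀ y, 0 ≤ c y) → ∑ y, c y = 1 →
    (∀ x y, 0 ≤ W x y) → 0 < pp α c W → 1 ≤ D → Blocks N b0 F D →
    (∀ v, v ∉ F → v ∉ N b0 → ∀ x y, W x y ≤ 1) →
    0 < tt α c W N ∧
    ((∑ b, ((N b).card : ℝ)) + Fintype.card A - F.card - (N b0).card) * Real.log (pp α c W) +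
      ((nf N b0 F D : ℝ) - KK N b0 F D) * gg α c W (D - 1) ≤ Real.log (tt α c W N)

/-- the information is nonnegative -/
def GNonneg : Prop :=
  ∀ (X Y : Type) [Fintype X] [Fintype Y] (α : X → ℝ) (c : Y → ℝ) (W : X → Y → ℝ) (k : ℕ),
    (∀ x, 0 ≤ α x) → ∑ x, α x = 1 → (∀ y, 0 ≤ c y) → ∑ y, c y = 1 →
    (∀ x y, 0 ≤ W x y) → 0 < pp α c W → 0 ≤ gg α c W k

end Vale.Agent.P050.R2.H901
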