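import Vale.Agent.P050.R2.H901.Defs2

/-!
Blocks with acyclic arms; gains counted with multiplicity.
-/

namespace Vale.Agent.P050.R2.H901

open Finset

section defs3

variable {A B : Type} [Fintype A] [DecidableEq A] [Fintype B] [DecidableEq B]

/-- the arms at `a` are acyclic: `f` is an order with running intersections -/
def Acyc (N : B → Finset A) (a : A) : Prop :=
  ∃ f : B → ℕ, (∀ b b', a ∈ N b → a ∈ N b' → f b = f b' → b = b') ∧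
    ∀ b, a ∈ N b → (∃ b₁, a ∈ N b₁ ∧ f b₁ < f b) → ∃ b', a ∈ N b' ∧ f b' < f b ∧
      ∀ b'', a ∈ N b'' → f b'' < f b → N b ∩ N b'' ⊆ N b'

/-- vertices of the blocks -/
def Blk (N : B → Finset A) (F : Finset A) : Finset A :=
  (univ.filter fun b => ∃ a ∈ F, a ∈ N b).biUnion N

/-- the gains -/
def gam (N : B → Finset A) (b0 : B) (F : Finset A) (D : ℕ) : ℕ :=
  ∑ b ∈ univ.filter (fun b => b ≠ b0 ∧ ∀ a ∈ F, a ∉ N b), ((N b \ Blk N F).card + 1 - D)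

/-- conditions on the set `F` of centres of blocks -/
structure Blocks2 (N : B → Finset A) (b0 : B) (F : Finset A) (D : ℕ) : Prop where
  hub : (N b0).Nonempty
  off : ∀ a ∈ F, a ∉ N b0
  deg : ∀ a ∈ F, ∀ b, a ∈ N b → (N b).card ≤ D
  arms : ∀ a ∈ F, Acyc N a
  apart : ∀ a ∈ F, ∀ a' ∈ F, a ≠ a' → ∀ b b', a ∈ N b → a' ∈ N b' → Disjoint (N b) (N b')

end defs3

/-- the main inequality -/
def CoreStmt2 : Prop :=
  ∀ (A B X Y : Type) [Fintype A] [DecidableEq A] [Fintype B] [DecidableEq B]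
    [Fintype X] [Fintype Y] (α : X → ℝ) (c : Y → ℝ) (W : X → Y → ℝ) (N : B → Finset A) (b0 : B)
    (F : Finset A) (D : ℕ), (∀ x, 0 ≤ α x) → ∑ x, α x = 1 → (∀ y, 0 ≤ c y) → ∑ y, c y = 1 →
    (∀ x y, 0 ≤ W x y) → 0 < pp α c W → 1 ≤ D → Blocks2 N b0 F D →
    (∀ v, v ∉ F → v ∉ N b0 → ∀ x y, W x y ≤ 1) →
    0 < tt α c W N ∧
    ((∑ b, ((N b).card : ℝ)) + Fintype.card A - F.card - (N b0).card) * Real.log (pp α c W) +
      ((gam N b0 F D : ℝ) - KK N b0 F D) * gg α c W (D - 1) ≤ Real.log (tt α c W N)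

/-- a system of overlapping arms -/
def HypStmt : Prop :=
  ∀ (V X B : Type) [Fintype V] [DecidableEq V] [Fintype X] [DecidableEq B] (μ : V → X → ℝ)
    (ε : X → ℝ) (k : ℕ) (I : Finset B) (f : B → ℕ) (κ : B → Fin k → V) (u : (Fin k → X) → ℝ),
    (∀ v x, 0 ≤ μ v x) → (∀ v, ∑ x, μ v x = 1) → (∀ b ∈ I, ∀ m, μ (κ b m) = ε) →
    (∀ ρ, 0 ≤ u ρ) → (∀ (π : Equiv.Perm (Fin k)) ρ, u (ρ ∘ π) = u ρ) →
    (∀ b ∈ I, Function.Injective (κ b)) → (∀ b ∈ I, ∀ b' ∈ I, f b = f b' → b = b') →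
    (∀ b ∈ I, (∃ b₁ ∈ I, f b₁ < f b) → ∃ b' ∈ I, f b' < f b ∧ ∀ b'' ∈ I, f b'' < f b →
      ∀ m m', κ b m = κ b'' m' → ∃ m'', κ b' m'' = κ b m) →
    (∑ ρ : Fin k → X, (∏ j, ε (ρ j)) * u ρ) ^ I.card
      ≤ ∑ x : V → X, (∏ v, μ v (x v)) * ∏ b ∈ I, u (fun m => x (κ b m))

end Vale.Agent.P050.R2.H901
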