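import Vale.Agent.P050.R2.H901.Core
import Vale.Agent.P050.R2.H128.WKer2
import Vale.Agent.P050.R2.H545.Fin

/-!
The main inequality and the information inequality, proved.
-/

namespace Vale.Agent.P050.R2.H901

theorem core : CoreStmt := core_of H128.sumStmt H128.k1Stmt H128.k2Stmt

theorem gnonneg : GNonneg := H128.gNonneg

end Vale.Agent.P050.R2.H901
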