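import Vale.Agent.P050.R2.H901.StepC

/-!
The main inequality.
-/

namespace Vale.Agent.P050.R2.H901

open Finset

namespace Dat

variable {A B X Y : Type} [Fintype A] [DecidableEq A] [Fintype B] [DecidableEq B]
    [Fintype X] [Fintype Y] (d : Dat A B X Y)

/-- `b` meets the block of `a` -/
def touch (a : A) (b : B) : Prop := ∃ b', a ∈ d.N b' ∧ ¬ Disjoint (d.N b) (d.N b')

theorem disj_C {a : A} {b : B} (hab : a ∉ d.N b) (ht : ¬ d.touch a b) :
    Disjoint ((d.N b).image Sum.inl) (d.C a) := by
  rw [Finset.disjoint_left]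
  intro v hv hv'
  obtain ⟨i, hi, rfl⟩ := Finset.mem_image.1 hv
  unfold C at hv'
  rw [mem_insert, Finset.mem_biUnion] at hv'
  rcases hv' with h | ⟨b', hb', h⟩
  · exact hab (Sum.inl_injective h ▸ hi)
  · obtain ⟨j, _, hj⟩ := Finset.mem_image.1 h
    refine ht ⟨b', d.mem_I.1 hb', fun hd => ?_⟩
    exact Finset.disjoint_left.1 hd hi (d.left b' j i hj).1

section

variable (hN : ∀ a y, mm d.α d.c d.W y ≠ 0 → 0 < d.Nn a y)
include hN

open Classical in
theorem per_b (k1 : K1Stmt) (k2 : K2Stmt) (b : B) :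
    ∑ a ∈ d.F, (if a ∈ d.N b then (d.D : ℝ) * (d.P a b - d.L a)
        else if d.touch a b then -d.L a else 0) +
      (if d.D ≤ (d.N b).card ∧ ∀ a ∈ d.F, ∀ b', a ∈ d.N b' → Disjoint (d.N b) (d.N b')
        then gg d.α d.c d.W d.k else 0) ≤ d.EE (fun _ x => Real.log (d.fb b x)) := by
  by_cases hadj : ∃ a ∈ d.F, a ∈ d.N b
  · obtain ⟨a, haF, hab⟩ := hadj
    have hself : ¬ Disjoint (d.N b) (d.N b) := fun h =>
      Finset.disjoint_left.1 h hab hab
    rw [Finset.sum_eq_single_of_mem a haF, if_pos hab, if_neg, add_zero]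
    · exact d.B2 hN k1 k2 haF hab
    · exact fun h => hself (h.2 a haF b hab)
    · intro a' ha' hne
      rw [if_neg, if_neg]
      · rintro ⟨b', hb', h⟩
        exact h (d.bl.apart a haF a' ha' hne.symm b b' hab hb')
      · exact fun h => hself (d.bl.apart a haF a' ha' hne.symm b b hab h)
  · have hb : ∀ a ∈ d.F, a ∉ d.N b := fun a ha h => hadj ⟨a, ha, h⟩
    have e1 : ∑ a ∈ d.F, (if a ∈ d.N b then (d.D : ℝ) * (d.P a b - d.L a)
        else if d.touch a b then -d.L a else 0)
        = - ∑ a ∈ d.F.filter fun a => d.touch a b, d.L a := by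
      rw [Finset.sum_filter, ← Finset.sum_neg_distrib]
      refine Finset.sum_congr rfl fun a ha => ?_
      rw [if_neg (hb a ha)]
      split_ifs <;> simp
    rw [e1]
    rcases (d.N b).eq_empty_or_nonempty with he | hne
    · have h1 : (d.F.filter fun a => d.touch a b) = ∅ := by
        refine Finset.filter_false_of_mem fun a _ => ?_
        rintro ⟨b', _, h⟩
        exact h (by rw [he]; exact Finset.disjoint_empty_left _)
      have h2 : ¬ d.D ≤ (d.N b).card := by
        rw [he, Finset.card_empty]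
        have := d.kD
        omega
      rw [h1, Finset.sum_empty, neg_zero, zero_add, if_neg fun h => h2 h.1]
      refine le_of_eq ?_
      have h3 : ∀ x, d.fb b x = 1 := by
        intro x
        have h4 := d.fb_eq b x
        rw [he, Finset.card_empty, pow_zero, one_mul] at h4
        rw [← h4]
        simp [d.K.c1]
      have h5 : d.EE (fun _ x => Real.log (d.fb b x)) = d.EE (fun _ _ => 0) :=
        d.EE_congr fun y x _ => by rw [h3, Real.log_one]
      rw [h5]
      simp [EE]
    · by_cases hfr : d.D ≤ (d.N b).card ∧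
          ∀ a ∈ d.F, ∀ b', a ∈ d.N b' → Disjoint (d.N b) (d.N b')
      · rw [if_pos hfr]
        have hnt : ∀ a ∈ d.F, ¬ d.touch a b := fun a ha ⟨b', hb', h⟩ => h (hfr.2 a ha b' hb')
        rw [Finset.filter_false_of_mem hnt, Finset.sum_empty, neg_zero, zero_add]
        exact d.B1free hN hb (fun a ha => d.disj_C (hb a ha) (hnt a ha)) hfr.1
      · rw [if_neg hfr, add_zero]
        have key := d.B1 hN hb hne (S := d.F.filter fun a => d.touch a b)
          (Finset.filter_subset _ _)
          (fun a ha hS => d.disj_C (hb a ha) fun h => hS (Finset.mem_filter.2 ⟨ha, h⟩))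
          (ψ := fun _ => 1) (fun _ => zero_le_one) (by
            simp only [mul_one]
            have := sum_wt_one (V := ↥(d.N b)) (μ := fun _ => d.α) (fun _ => d.K.a1)
            unfold wt at this
            rw [this]) (fun _ _ _ => zero_lt_one)
        refine le_trans (le_of_eq ?_) key
        simp [EE]

open Classical in
/-- the main inequality for the data -/
theorem main (hS : SumStmt) (k1 : K1Stmt) (k2 : K2Stmt)
    (hθ : ∀ a, rr d.N a ≠ 0 → (1 + qq d.N d.b0 a + d.D * rr d.N a) * d.θ a = d.D)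
    (hW : ∀ v, v ∉ d.F → v ∉ d.N d.b0 → ∀ x y, d.W x y ≤ 1) :
    0 < tt d.α d.c d.W d.N ∧
    ((∑ b, ((d.N b).card : ℝ)) + Fintype.card A - d.F.card - (d.N d.b0).card) *
      Real.log (pp d.α d.c d.W) + ((nf d.N d.b0 d.F d.D : ℝ) - KK d.N d.b0 d.F d.D) *
      gg d.α d.c d.W d.k ≤ Real.log (tt d.α d.c d.W d.N) := by
  obtain ⟨h0, h1⟩ := d.G0 hN hW
  refine ⟨h0, le_trans ?_ h1⟩
  set g := gg d.α d.c d.W d.k with hg
  have h2 : ∑ b ∈ univ.erase d.b0, (∑ a ∈ d.F, (if a ∈ d.N b then (d.D : ℝ) * (d.P a b - d.L a)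
        else if d.touch a b then -d.L a else 0) +
      (if d.D ≤ (d.N b).card ∧ ∀ a ∈ d.F, ∀ b', a ∈ d.N b' → Disjoint (d.N b) (d.N b')
        then g else 0)) ≤ ∑ b ∈ univ.erase d.b0, d.EE (fun _ x => Real.log (d.fb b x)) :=
    Finset.sum_le_sum fun b _ => d.per_b hN k1 k2 b
  rw [Finset.sum_add_distrib, Finset.sum_comm] at h2
  have h3 : ∑ b ∈ univ.erase d.b0, (if d.D ≤ (d.N b).card ∧
      ∀ a ∈ d.F, ∀ b', a ∈ d.N b' → Disjoint (d.N b) (d.N b') then g else 0)
      = (nf d.N d.b0 d.F d.D : ℝ) * g := by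
    rw [← Finset.sum_filter, Finset.sum_const, nsmul_eq_mul]
    congr 2
    unfold nf
    congr 1
    ext b
    simp only [Finset.mem_filter, Finset.mem_erase, mem_univ, true_and, and_true]
  have h4 : ∀ a ∈ d.F, ∑ b ∈ univ.erase d.b0, (if a ∈ d.N b then (d.D : ℝ) *
      (d.P a b - d.L a) else if d.touch a b then -d.L a else 0)
      = d.D * ∑ b ∈ d.I a, d.P a b - (d.D * rr d.N a + qq d.N d.b0 a) * d.L a := by
    intro a ha
    have e1 : ∀ b, (if a ∈ d.N b then (d.D : ℝ) *
        (d.P a b - d.L a) else if d.touch a b then -d.L a else 0)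
        = (if a ∈ d.N b then (d.D : ℝ) * (d.P a b - d.L a) else 0) +
          (if a ∉ d.N b ∧ d.touch a b then -d.L a else 0) := by
      intro b
      by_cases h : a ∈ d.N b <;> simp [h]
    simp_rw [e1]
    rw [Finset.sum_add_distrib, ← Finset.sum_filter, ← Finset.sum_filter]
    have e2 : (univ.erase d.b0).filter (fun b => a ∈ d.N b) = d.I a := by
      ext b
      simp only [Finset.mem_filter, Finset.mem_erase, mem_univ, and_true, d.mem_I,
        and_iff_right_iff_imp]
      rintro h rfl
      exact d.bl.off a ha h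
    have e3 : ((univ.erase d.b0).filter (fun b => a ∉ d.N b ∧ d.touch a b)).card
        = qq d.N d.b0 a := by
      unfold qq touch
      congr 1
      ext b
      simp only [Finset.mem_filter, Finset.mem_erase, mem_univ, true_and, and_true]
    have e4 : (d.I a).card = rr d.N a := rfl
    rw [e2, Finset.sum_const, e3, ← Finset.mul_sum, Finset.sum_sub_distrib, Finset.sum_const, e4,
      nsmul_eq_mul, nsmul_eq_mul]
    ring
  rw [Finset.sum_congr rfl h4, h3] at h2
  have h5 : ∀ a ∈ d.F, -((rr d.N a * (1 + qq d.N d.b0 a + d.D * (rr d.N a - 1)) : ℕ) : ℝ) * g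
      ≤ d.D * ∑ b ∈ d.I a, d.P a b - (d.D * rr d.N a + qq d.N d.b0 a) * d.L a - d.L a := by
    intro a ha
    have hL := d.L_eq hN ha
    have hge := d.logN_ge hS a
    set LN := ∑ y, mm d.α d.c d.W y * Real.log (d.Nn a y)
    by_cases hr : rr d.N a = 0
    · have hI : d.I a = ∅ := Finset.card_eq_zero.1 hr
      rw [hI, Finset.sum_empty, mul_zero, zero_sub] at hL
      rw [hr] at hge ⊢
      rw [hI, Finset.sum_empty, hL]
      simp only [Nat.cast_zero, zero_mul, neg_zero, mul_zero, zero_add, zero_sub] at hge ⊢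
      have : 0 ≤ (qq d.N d.b0 a : ℝ) * LN := mul_nonneg (Nat.cast_nonneg _) hge
      linarith
    · obtain ⟨r, hr'⟩ : ∃ r, rr d.N a = r + 1 := ⟨rr d.N a - 1, by omega⟩
      have hM := hθ a hr
      rw [hr'] at hM hge ⊢
      rw [Nat.add_sub_cancel]
      push_cast at hM hge ⊢
      have hMp : (0 : ℝ) ≤ 1 + qq d.N d.b0 a + d.D * ((r : ℝ) + 1) := by positivity
      have h6 := mul_le_mul_of_nonneg_left hge hMp
      have e5 : (d.D : ℝ) * ∑ b ∈ d.I a, d.P a b - (d.D * ((r : ℝ) + 1) + qq d.N d.b0 a) *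
          d.L a - d.L a = (1 + qq d.N d.b0 a + d.D * ((r : ℝ) + 1)) * LN := by
        rw [hL]
        have : (d.D : ℝ) * ∑ b ∈ d.I a, d.P a b = (1 + qq d.N d.b0 a + d.D * ((r : ℝ) + 1)) *
            d.θ a * ∑ b ∈ d.I a, d.P a b := by rw [hM]
        rw [this]
        ring
      rw [e5]
      refine le_trans (le_of_eq ?_) h6
      have e6 : (1 + qq d.N d.b0 a + d.D * ((r : ℝ) + 1)) * -(((r : ℝ) + 1) * (1 - d.θ a) * g)
          = -(((r : ℝ) + 1) * ((1 + qq d.N d.b0 a + d.D * ((r : ℝ) + 1)) -
            (1 + qq d.N d.b0 a + d.D * ((r : ℝ) + 1)) * d.θ a) * g) := by ring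
      rw [e6, hM]
      ring
  have h6 := Finset.sum_le_sum h5
  rw [← Finset.sum_mul, Finset.sum_neg_distrib, ← Nat.cast_sum, Finset.sum_sub_distrib] at h6
  have e7 : (KK d.N d.b0 d.F d.D : ℝ) = ((∑ a ∈ d.F, rr d.N a * (1 + qq d.N d.b0 a +
      d.D * (rr d.N a - 1)) : ℕ) : ℝ) := rfl
  rw [← e7] at h6
  linarith

end

end Dat

/-- coordinates of the arms -/
theorem exists_kappa {A B : Type} [DecidableEq A] (N : B → Finset A)
    (F : Finset A) (k : ℕ) : ∃ κ : B → Fin k → A ⊕ (B × Fin k),
      (∀ b, Function.Injective (κ b)) ∧ (∀ b j v, κ b j = Sum.inl v → v ∈ N b ∧ v ∉ F) ∧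
      (∀ b j w, κ b j = Sum.inr w → w.1 = b) ∧
      (∀ b, (N b \ F).card ≤ k → ∀ v ∈ N b \ F, ∃ j, κ b j = Sum.inl v) := by
  classical
  have key : ∀ b : B, ∃ κ : Fin k → A ⊕ (B × Fin k), Function.Injective κ ∧
      (∀ j v, κ j = Sum.inl v → v ∈ N b ∧ v ∉ F) ∧ (∀ j w, κ j = Sum.inr w → w.1 = b) ∧
      ((N b \ F).card ≤ k → ∀ v ∈ N b \ F, ∃ j, κ j = Sum.inl v) := by
    intro b
    by_cases hc : (N b \ F).card ≤ k
    · obtain ⟨σ⟩ : Nonempty (↥(N b \ F) ↪ Fin k) := by
        refine Function.Embedding.nonempty_of_card_le ?_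
        rw [Fintype.card_coe, Fintype.card_fin]
        exact hc
      refine ⟨fun j => if h : ∃ v : ↥(N b \ F), σ v = j then Sum.inl h.choose.1
        else Sum.inr (b, j), ?_, ?_, ?_, ?_⟩
      · intro j j' e
        simp only at e
        by_cases h : ∃ v : ↥(N b \ F), σ v = j
        · by_cases h' : ∃ v : ↥(N b \ F), σ v = j'
          · rw [dif_pos h, dif_pos h'] at e
            have e2 : h.choose = h'.choose := Subtype.ext (Sum.inl_injective e)
            rw [← h.choose_spec, ← h'.choose_spec, e2]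
          · rw [dif_pos h, dif_neg h'] at e
            exact absurd e (by simp)
        · by_cases h' : ∃ v : ↥(N b \ F), σ v = j'
          · rw [dif_neg h, dif_pos h'] at e
            exact absurd e (by simp)
          · rw [dif_neg h, dif_neg h'] at e
            exact (Prod.ext_iff.1 (Sum.inr_injective e)).2
      · intro j v e
        simp only at e
        by_cases h : ∃ v : ↥(N b \ F), σ v = j
        · rw [dif_pos h] at e
          have := h.choose.2
          rw [Sum.inl_injective e] at this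
          exact Finset.mem_sdiff.1 this
        · rw [dif_neg h] at e
          exact absurd e (by simp)
      · intro j w e
        simp only at e
        by_cases h : ∃ v : ↥(N b \ F), σ v = j
        · rw [dif_pos h] at e
          exact absurd e (by simp)
        · rw [dif_neg h] at e
          rw [← Sum.inr_injective e]
      · intro _ v hv
        refine ⟨σ ⟨v, hv⟩, ?_⟩
        have h : ∃ v' : ↥(N b \ F), σ v' = σ ⟨v, hv⟩ := ⟨_, rfl⟩
        simp only
        rw [dif_pos h, σ.injective h.choose_spec]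
    · refine ⟨fun j => Sum.inr (b, j), ?_, ?_, ?_, fun h => absurd h hc⟩
      · intro j j' e
        exact (Prod.ext_iff.1 (Sum.inr_injective e)).2
      · intro j v e
        exact absurd e (by simp)
      · intro j w e
        rw [← Sum.inr_injective e]
  choose κ h1 h2 h3 h4 using key
  exact ⟨κ, h1, h2, h3, h4⟩

/-- the main inequality from the kernel facts -/
theorem core_of (hS : SumStmt) (k1 : K1Stmt) (k2 : K2Stmt) : CoreStmt := by
  classical
  intro A B X Y _ _ _ _ _ _ α c W N b0 F D a0 a1 c0 c1 W0 p0 hD hB hW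
  obtain ⟨κ, κ1, κ2, κ3, κ4⟩ := exists_kappa N F (D - 1)
  have hself : ∀ a ∈ F, ∀ b, a ∈ N b → ∀ v ∈ N b, v ≠ a → v ∉ F := by
    intro a ha b hab v hv hne hvF
    exact Finset.disjoint_left.1 (hB.apart v hvF a ha hne b b hv hab) hab hab
  let d : Dat A B X Y :=
    { α := α, c := c, W := W, N := N, b0 := b0, F := F, D := D, k := D - 1, κ := κ
      θ := fun a => if rr N a = 0 then 1 else (D : ℝ) / (1 + qq N b0 a + D * rr N a)
      K := ⟨a0, a1, c0, c1, W0, p0⟩
      bl := hB
      kD := by omega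
      θpos := fun a => by
        split_ifs
        · exact zero_lt_one
        · have : (0 : ℝ) < D := by exact_mod_cast hD
          positivity
      θle := fun a => by
        split_ifs with h
        · exact le_rfl
        · have h1 : (1 : ℝ) ≤ rr N a := by exact_mod_cast Nat.one_le_iff_ne_zero.2 h
          have h2 : (0 : ℝ) ≤ D := Nat.cast_nonneg _
          have h3 : (0 : ℝ) ≤ qq N b0 a := Nat.cast_nonneg _
          have h4 := mul_le_mul_of_nonneg_left h1 h2
          rw [div_le_one (by positivity)]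
          linarith
      inj := κ1
      left := κ2
      right := κ3
      cover := fun a ha b hab v hv hne => by
        refine κ4 b ?_ v (Finset.mem_sdiff.2 ⟨hv, hself a ha b hab v hv hne⟩)
        have h1 : N b \ F ⊆ (N b).erase a := by
          intro u hu
          rw [Finset.mem_sdiff] at hu
          exact Finset.mem_erase.2 ⟨fun e => hu.2 (e ▸ ha), hu.1⟩
        have h2 := Finset.card_le_card h1
        rw [Finset.card_erase_of_mem hab] at h2
        have h3 := hB.deg a ha b hab
        omega }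
  refine d.main (d.hN_of hS) hS k1 k2 (fun a ha => ?_) hW
  change (1 + (qq N b0 a : ℝ) + D * rr N a) *
    (if rr N a = 0 then 1 else (D : ℝ) / (1 + qq N b0 a + D * rr N a)) = D
  have ha' : rr N a ≠ 0 := ha
  rw [if_neg ha', mul_div_cancel₀]
  positivity

end Vale.Agent.P050.R2.H901
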