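import Vale.Agent.P050.R2.H901.Law
import Vale.Agent.P050.R2.H901.Defs3

/-!
The data and the law with tilted blocks, acyclic arms.
-/

namespace Vale.Agent.P050.R2.H901

open Finset

/-- the centre of a block -/
theorem fix_center {V X : Type} [Fintype V] [DecidableEq V] [Fintype X] {μ : V → X → ℝ}
    (h : ∀ v, ∑ ξ, μ v ξ = 1) {B : Type} [DecidableEq B] (I : Finset B) {k : ℕ}
    (κ : B → Fin k → V) (v0 : V) (h3 : ∀ b ∈ I, ∀ j, κ b j ≠ v0) (G : (Fin k → X) → X → ℝ) :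
    ∑ x : V → X, wt μ x * ∏ b ∈ I, G (fun j => x (κ b j)) (x v0)
      = ∑ ξ, μ v0 ξ * ∑ x : V → X, wt μ x * ∏ b ∈ I, G (fun j => x (κ b j)) ξ := by
  classical
  have e : ∀ x : V → X, wt μ x * ∏ b ∈ I, G (fun j => x (κ b j)) (x v0)
      = ∑ ξ, wt μ x * ((if x v0 = ξ then 1 else 0) * ∏ b ∈ I, G (fun j => x (κ b j)) ξ) := by
    intro x
    rw [Finset.sum_eq_single (x v0)]
    · simp
    · intro ξ _ hξ
      rw [if_neg (Ne.symm hξ)]
      ring
    · intro hh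
      exact absurd (mem_univ _) hh
  simp_rw [e]
  rw [Finset.sum_comm]
  refine Finset.sum_congr rfl fun ξ _ => ?_
  have hd : ∀ b ∈ I, Dep (univ.image (κ b)) (fun x : V → X => G (fun j => x (κ b j)) ξ) := by
    intro b _ x x' hx
    have : (fun j => x (κ b j)) = fun j => x' (κ b j) := by
      funext j
      exact hx _ (mem_image_of_mem _ (mem_univ j))
    simp only [this]
  have hd0 : Dep {v0} (fun x : V → X => if x v0 = ξ then (1 : ℝ) else 0) := by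
    intro x x' hx
    simp only
    rw [hx v0 (mem_singleton_self _)]
  have hdis : Disjoint {v0} (I.biUnion fun b => univ.image (κ b)) := by
    rw [Finset.disjoint_singleton_left, Finset.mem_biUnion]
    rintro ⟨b, hb, hv⟩
    obtain ⟨j, _, hj⟩ := Finset.mem_image.1 hv
    exact h3 b hb j hj
  rw [indep h hdis hd0 (Dep.prod hd), sum_wt_single h]

/-- the graph, the kernel, the blocks and the coordinates of the arms -/
structure Dt (A B X Y : Type) [Fintype A] [DecidableEq A] [Fintype B] [DecidableEq B]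
    [Fintype X] [Fintype Y] where
  α : X → ℝ
  c : Y → ℝ
  W : X → Y → ℝ
  N : B → Finset A
  b0 : B
  F : Finset A
  D : ℕ
  k : ℕ
  κ : B → Fin k → A ⊕ (B × Fin k)
  θ : A → ℝ
  K : Ker α c W
  bl : Blocks2 N b0 F D
  kD : k + 1 = D
  θpos : ∀ a, 0 < θ a
  θle : ∀ a, θ a ≤ 1
  inj : ∀ b, Function.Injective (κ b)
  left : ∀ b j v, κ b j = Sum.inl v → v ∈ N b ∧ v ∉ F
  right : ∀ b j w, κ b j = Sum.inr w → w.1 = b
  cover : ∀ a ∈ F, ∀ b, a ∈ N b → ∀ v ∈ N b, v ≠ a → ∃ j, κ b j = Sum.inl v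

namespace Dt

variable {A B X Y : Type} [Fintype A] [DecidableEq A] [Fintype B] [DecidableEq B]
    [Fintype X] [Fintype Y] (d : Dt A B X Y)

/-- base laws -/
noncomputable def mu (y : Y) : A ⊕ (B × Fin d.k) → X → ℝ
  | Sum.inl a => fun x => if a ∈ d.F then d.α x else ee d.α d.W y x
  | Sum.inr _ => ee d.α d.W y

/-- the arms at `a` -/
def I (a : A) : Finset B := univ.filter fun b => a ∈ d.N b

/-- the tilt of the block of `a` -/
noncomputable def hh (a : A) (x : A ⊕ (B × Fin d.k) → X) : ℝ :=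
  ∏ b ∈ d.I a, ph d.α d.c d.W (fun j => x (d.κ b j)) (x (Sum.inl a)) ^ d.θ a

/-- normalising factor -/
noncomputable def Nn (a : A) (y : Y) : ℝ := ∑ x, wt (d.mu y) x * d.hh a x

/-- lower bound for the normalising factor -/
noncomputable def Nl (a : A) (y : Y) : ℝ :=
  ∑ ξ, d.α ξ * (∑ ρ : Fin d.k → X, (∏ j, ee d.α d.W y (ρ j)) *
    ph d.α d.c d.W ρ ξ ^ d.θ a) ^ rr d.N a

/-- normalised tilt -/
noncomputable def ha (a : A) (y : Y) (x : A ⊕ (B × Fin d.k) → X) : ℝ := d.hh a x / d.Nn a y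

/-- coordinates of the block -/
def C (a : A) : Finset (A ⊕ (B × Fin d.k)) :=
  insert (Sum.inl a) ((d.I a).biUnion fun b => univ.image (d.κ b))

/-- the law -/
noncomputable def Pi (y : Y) (x : A ⊕ (B × Fin d.k) → X) : ℝ :=
  mm d.α d.c d.W y * (wt (d.mu y) x * ∏ a ∈ d.F, d.ha a y x)

/-- expectation -/
noncomputable def EE (G : Y → (A ⊕ (B × Fin d.k) → X) → ℝ) : ℝ := ∑ y, ∑ x, d.Pi y x * G y x

theorem mem_I {a : A} {b : B} : b ∈ d.I a ↔ a ∈ d.N b := by simp [I]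

theorem mu0 (y : Y) (v : A ⊕ (B × Fin d.k)) (x : X) : 0 ≤ d.mu y v x := by
  rcases v with a | w
  · simp only [mu]
    split_ifs
    · exact d.K.a0 x
    · exact d.K.ee0 y x
  · exact d.K.ee0 y x

theorem mu1 {y : Y} (hy : mm d.α d.c d.W y ≠ 0) (v : A ⊕ (B × Fin d.k)) :
    ∑ x, d.mu y v x = 1 := by
  rcases v with a | w
  · simp only [mu]
    split_ifs
    · exact d.K.a1
    · exact d.K.ee1' hy
  · exact d.K.ee1' hy

theorem mu_mem {a : A} (ha : a ∈ d.F) (y : Y) : d.mu y (Sum.inl a) = d.α := by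
  funext x
  simp [mu, ha]

theorem mu_not_mem {a : A} (ha : a ∉ d.F) (y : Y) : d.mu y (Sum.inl a) = ee d.α d.W y := by
  funext x
  simp [mu, ha]

theorem mu_inr (w : B × Fin d.k) (y : Y) : d.mu y (Sum.inr w) = ee d.α d.W y := rfl

theorem mu_kap (b : B) (j : Fin d.k) (y : Y) : d.mu y (d.κ b j) = ee d.α d.W y := by
  rcases hv : d.κ b j with v | w
  · exact d.mu_not_mem (d.left b j v hv).2 y
  · rfl

theorem kap_ne_center {a : A} (ha : a ∈ d.F) (b : B) (j : Fin d.k) : d.κ b j ≠ Sum.inl a :=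
  fun e => (d.left b j a e).2 ha

theorem kap_run {a : A} (ha : a ∈ d.F) {b b' b'' : B} (hb' : a ∈ d.N b')
    (hne : b ≠ b'') (hs : d.N b ∩ d.N b'' ⊆ d.N b') (m m' : Fin d.k)
    (e : d.κ b m = d.κ b'' m') : ∃ m'', d.κ b' m'' = d.κ b m := by
  rcases hv : d.κ b m with v | w
  · have h1 := d.left b m v hv
    have h2 := d.left b'' m' v (e ▸ hv)
    exact d.cover a ha b' hb' v (hs (Finset.mem_inter.2 ⟨h1.1, h2.1⟩)) fun e => h1.2 (e ▸ ha)
  · exact absurd ((d.right b m w hv).symm.trans (d.right b'' m' w (e ▸ hv))) hne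

/-- the density of a further point is symmetric -/
theorem ph_perm {k : ℕ} (π : Equiv.Perm (Fin k)) (ρ : Fin k → X) (x : X) :
    ph d.α d.c d.W (ρ ∘ π) x = ph d.α d.c d.W ρ x := by
  have h : ∀ y, ∏ j, ee d.α d.W y ((ρ ∘ π) j) = ∏ j, ee d.α d.W y (ρ j) := fun y =>
    Equiv.prod_comp π (fun j => ee d.α d.W y (ρ j))
  unfold ph Pk1 Pk
  simp_rw [h]

/-- lower bound for the normalising factor -/
theorem Nn_ge (hyp : HypStmt) {a : A} (ha : a ∈ d.F) {y : Y} (hy : mm d.α d.c d.W y ≠ 0) :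
    d.Nl a y ≤ d.Nn a y := by
  unfold Nn hh Nl
  rw [fix_center (d.mu1 hy) (d.I a) d.κ (Sum.inl a) (fun b _ j => d.kap_ne_center ha b j)
    (fun ρ ξ => ph d.α d.c d.W ρ ξ ^ d.θ a), d.mu_mem ha]
  refine Finset.sum_le_sum fun ξ _ => mul_le_mul_of_nonneg_left ?_ (d.K.a0 ξ)
  obtain ⟨f, hf1, hf2⟩ := d.bl.arms a ha
  have key := hyp (A ⊕ (B × Fin d.k)) X B (d.mu y) (ee d.α d.W y) d.k (d.I a) f d.κ
    (fun ρ => ph d.α d.c d.W ρ ξ ^ d.θ a) (d.mu0 y) (d.mu1 hy)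
    (fun b _ m => d.mu_kap b m y) (fun ρ => Real.rpow_nonneg (d.K.ph0 _ _) _)
    (fun π ρ => by rw [d.ph_perm]) (fun b _ => d.inj b)
    (fun b hb b' hb' => hf1 b b' (d.mem_I.1 hb) (d.mem_I.1 hb')) ?_
  · exact key
  · rintro b hb ⟨b₁, hb₁, hlt⟩
    obtain ⟨b', hb', hlt', h⟩ := hf2 b (d.mem_I.1 hb) ⟨b₁, d.mem_I.1 hb₁, hlt⟩
    refine ⟨b', d.mem_I.2 hb', hlt', fun b'' hb'' hlt'' m m' e => ?_⟩
    exact d.kap_run ha hb' (fun e => (hlt''.ne (by rw [e]))) (h b'' (d.mem_I.1 hb'') hlt'') m m' e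

theorem hh0 (a : A) (x : A ⊕ (B × Fin d.k) → X) : 0 ≤ d.hh a x :=
  prod_nonneg fun _ _ => Real.rpow_nonneg (d.K.ph0 _ _) _

theorem Nn0 (a : A) (y : Y) : 0 ≤ d.Nn a y :=
  sum_nonneg fun x _ => mul_nonneg (wt_nonneg (d.mu0 y) x) (d.hh0 a x)

theorem ha0 (a : A) (y : Y) (x : A ⊕ (B × Fin d.k) → X) : 0 ≤ d.ha a y x :=
  div_nonneg (d.hh0 a x) (d.Nn0 a y)

theorem dep_hh (a : A) : Dep (d.C a) (d.hh a) := by
  intro x x' hx
  unfold hh
  refine Finset.prod_congr rfl fun b hb => ?_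
  have h1 : x (Sum.inl a) = x' (Sum.inl a) := hx _ (mem_insert_self _ _)
  have h2 : (fun j => x (d.κ b j)) = fun j => x' (d.κ b j) := by
    funext j
    refine hx _ (mem_insert_of_mem (Finset.mem_biUnion.2 ⟨b, hb, ?_⟩))
    exact mem_image_of_mem _ (mem_univ j)
  rw [h1, h2]

theorem dep_ha (a : A) (y : Y) : Dep (d.C a) (d.ha a y) := by
  intro x x' hx
  unfold ha
  rw [d.dep_hh a x x' hx]

theorem disj {a a' : A} (ha : a ∈ d.F) (ha' : a' ∈ d.F) (hne : a ≠ a') :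
    Disjoint (d.C a) (d.C a') := by
  rw [Finset.disjoint_left]
  intro v hv hv'
  unfold C at hv hv'
  rw [mem_insert, Finset.mem_biUnion] at hv hv'
  rcases hv with hv | ⟨b, hb, hv⟩
  · rcases hv' with hv' | ⟨b', hb', hv'⟩
    · exact hne (Sum.inl_injective (hv.symm.trans hv'))
    · obtain ⟨j, _, hj⟩ := Finset.mem_image.1 hv'
      exact d.kap_ne_center ha b' j (hj.trans hv)
  · obtain ⟨j, _, hj⟩ := Finset.mem_image.1 hv
    rcases hv' with hv' | ⟨b', hb', hv'⟩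
    · exact d.kap_ne_center ha' b j (hj.trans hv')
    · obtain ⟨j', _, hj'⟩ := Finset.mem_image.1 hv'
      have hap := d.bl.apart a ha a' ha' hne b b' (d.mem_I.1 hb) (d.mem_I.1 hb')
      rcases v with v | w
      · exact Finset.disjoint_left.1 hap (d.left b j v hj).1 (d.left b' j' v hj').1
      · have e : b = b' := (d.right b j w hj).symm.trans (d.right b' j' w hj')
        subst e
        exact Finset.disjoint_left.1 hap (d.mem_I.1 hb) (d.mem_I.1 hb)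

section

variable (hN : ∀ a ∈ d.F, ∀ y, mm d.α d.c d.W y ≠ 0 → 0 < d.Nn a y)
include hN

theorem norm' {a : A} (ha : a ∈ d.F) {y : Y} (hy : mm d.α d.c d.W y ≠ 0) :
    ∑ x, wt (d.mu y) x * d.ha a y x = 1 := by
  unfold Dt.ha
  simp_rw [← mul_div_assoc]
  rw [← Finset.sum_div]
  exact div_self (hN a ha y hy).ne'

/-- blocks not met by `G` are integrated out -/
theorem int_out {y : Y} (hy : mm d.α d.c d.W y ≠ 0) {S : Finset A} (hS : S ⊆ d.F)
    {T : Finset (A ⊕ (B × Fin d.k))} {G : (A ⊕ (B × Fin d.k) → X) → ℝ} (hG : Dep T G)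
    (hT : ∀ a ∈ S, Disjoint T (d.C a)) :
    ∑ x, wt (d.mu y) x * ((∏ a ∈ S, d.ha a y x) * G x) = ∑ x, wt (d.mu y) x * G x := by
  have h1 : Disjoint (S.biUnion d.C) T := by
    rw [Finset.disjoint_biUnion_left]
    exact fun a ha => (hT a ha).symm
  rw [indep (d.mu1 hy) h1 (Dep.prod fun a _ => d.dep_ha a y) hG,
    indep_prod (d.mu1 hy) S (fun a _ => d.dep_ha a y)
      (fun a ha a' ha' hne => d.disj (hS ha) (hS ha') hne),
    Finset.prod_eq_one fun a ha => d.norm' hN (hS ha) hy, one_mul]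

theorem int_all {y : Y} (hy : mm d.α d.c d.W y ≠ 0)
    {T : Finset (A ⊕ (B × Fin d.k))} {G : (A ⊕ (B × Fin d.k) → X) → ℝ} (hG : Dep T G)
    (hT : ∀ a ∈ d.F, Disjoint T (d.C a)) :
    ∑ x, wt (d.mu y) x * ((∏ a ∈ d.F, d.ha a y x) * G x) = ∑ x, wt (d.mu y) x * G x :=
  d.int_out hN hy subset_rfl hG hT

/-- the tilts of the blocks in `S` are removed by dividing -/
theorem int_div {y : Y} (hy : mm d.α d.c d.W y ≠ 0) {S : Finset A} (hS : S ⊆ d.F)
    {T : Finset (A ⊕ (B × Fin d.k))} {G : (A ⊕ (B × Fin d.k) → X) → ℝ} (hG0 : ∀ x, 0 ≤ G x)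
    (hG : Dep T G) (hT : ∀ a ∈ d.F, a ∉ S → Disjoint T (d.C a)) :
    ∑ x, wt (d.mu y) x * ((∏ a ∈ d.F, d.ha a y x) * (G x / ∏ a ∈ S, d.ha a y x))
      ≤ ∑ x, wt (d.mu y) x * G x := by
  rw [← d.int_out hN hy (S := d.F \ S) Finset.sdiff_subset hG (fun a ha =>
    hT a (Finset.mem_sdiff.1 ha).1 (Finset.mem_sdiff.1 ha).2)]
  refine Finset.sum_le_sum fun x _ => mul_le_mul_of_nonneg_left ?_ (wt_nonneg (d.mu0 y) x)
  rw [← Finset.prod_sdiff hS]
  by_cases h : ∏ a ∈ S, d.ha a y x = 0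
  · rw [h, mul_zero, zero_mul]
    exact mul_nonneg (prod_nonneg fun a _ => d.ha0 a y x) (hG0 x)
  · refine le_of_eq ?_
    field_simp

/-- total mass given `y` -/
theorem mass_y {y : Y} (hy : mm d.α d.c d.W y ≠ 0) :
    ∑ x, wt (d.mu y) x * ∏ a ∈ d.F, d.ha a y x = 1 := by
  have := d.int_all hN hy (T := ∅) (G := fun _ => 1) (fun _ _ _ => rfl)
    (fun a _ => Finset.disjoint_empty_left _)
  simp only [mul_one] at this
  rw [this, sum_wt_one (d.mu1 hy)]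

/-- expectation of a function of `y` -/
theorem EE_y (G : Y → ℝ) : d.EE (fun y _ => G y) = ∑ y, mm d.α d.c d.W y * G y := by
  unfold EE Pi
  refine Finset.sum_congr rfl fun y _ => ?_
  by_cases hy : mm d.α d.c d.W y = 0
  · simp [hy]
  · rw [← Finset.sum_mul, ← Finset.mul_sum, d.mass_y hN hy, mul_one]

omit hN in
theorem Pi0 (y : Y) (x : A ⊕ (B × Fin d.k) → X) : 0 ≤ d.Pi y x :=
  mul_nonneg (d.K.mm0 y) (mul_nonneg (wt_nonneg (d.mu0 y) x)
    (prod_nonneg fun a _ => d.ha0 a y x))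

/-- Jensen's inequality for the law -/
theorem EE_jensen {u : Y → (A ⊕ (B × Fin d.k) → X) → ℝ}
    (hu : ∀ y x, d.Pi y x ≠ 0 → 0 < u y x) :
    0 < d.EE u ∧ d.EE (fun y x => Real.log (u y x)) ≤ Real.log (d.EE u) := by
  have h1 : ∑ p : Y × (A ⊕ (B × Fin d.k) → X), d.Pi p.1 p.2 = 1 := by
    rw [Fintype.sum_prod_type]
    have := d.EE_y hN (fun _ => 1)
    unfold EE at this
    simp only [mul_one] at this
    rw [this, d.K.mm1]
  have h2 := jensen (q := fun p : Y × (A ⊕ (B × Fin d.k) → X) => d.Pi p.1 p.2)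
    (u := fun p => u p.1 p.2) (fun p => d.Pi0 p.1 p.2) h1 (fun p hp => hu p.1 p.2 hp)
  simp only [Fintype.sum_prod_type] at h2
  exact h2

theorem EE_jensen' {u : Y → (A ⊕ (B × Fin d.k) → X) → ℝ}
    (hu : ∀ y x, d.Pi y x ≠ 0 → 0 < u y x) (h1 : d.EE u ≤ 1) :
    d.EE (fun y x => Real.log (u y x)) ≤ 0 :=
  (d.EE_jensen hN hu).2.trans (Real.log_nonpos (d.EE_jensen hN hu).1.le h1)

end

/-- facts on the support -/
theorem supp_m {y : Y} {x : A ⊕ (B × Fin d.k) → X} (h : d.Pi y x ≠ 0) : mm d.α d.c d.W y ≠ 0 :=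
  fun e => h (by simp [Pi, e])

theorem supp_mu {y : Y} {x : A ⊕ (B × Fin d.k) → X} (h : d.Pi y x ≠ 0)
    (v : A ⊕ (B × Fin d.k)) : d.mu y v (x v) ≠ 0 :=
  fun e => h (by
    have : wt (d.mu y) x = 0 := Finset.prod_eq_zero (mem_univ v) e
    simp [Pi, this])

theorem supp_ee {y : Y} {x : A ⊕ (B × Fin d.k) → X} (h : d.Pi y x ≠ 0) {a : A}
    (ha : a ∉ d.F) : ee d.α d.W y (x (Sum.inl a)) ≠ 0 := by
  rw [← d.mu_not_mem ha y]
  exact d.supp_mu h _

theorem supp_al {y : Y} {x : A ⊕ (B × Fin d.k) → X} (h : d.Pi y x ≠ 0) (a : A) :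
    0 < d.α (x (Sum.inl a)) := by
  by_cases ha : a ∈ d.F
  · have := d.supp_mu h (Sum.inl a)
    rw [d.mu_mem ha] at this
    exact lt_of_le_of_ne (d.K.a0 _) (Ne.symm this)
  · exact d.K.apos (d.supp_ee h ha)

theorem supp_ha {y : Y} {x : A ⊕ (B × Fin d.k) → X} (h : d.Pi y x ≠ 0) {a : A}
    (ha : a ∈ d.F) : 0 < d.ha a y x :=
  lt_of_le_of_ne (d.ha0 a y x) fun e => h (by
    have : ∏ a ∈ d.F, d.ha a y x = 0 := Finset.prod_eq_zero ha e.symm
    simp [Pi, this])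

theorem supp_ph {y : Y} {x : A ⊕ (B × Fin d.k) → X} (h : d.Pi y x ≠ 0) {a : A}
    (ha : a ∈ d.F) {b : B} (hb : a ∈ d.N b) :
    0 < ph d.α d.c d.W (fun j => x (d.κ b j)) (x (Sum.inl a)) := by
  refine lt_of_le_of_ne (d.K.ph0 _ _) fun e => ?_
  have h1 : d.hh a x = 0 := by
    refine Finset.prod_eq_zero (d.mem_I.2 hb) ?_
    rw [← e, Real.zero_rpow (d.θpos a).ne']
  have h2 := d.supp_ha h ha
  unfold Dt.ha at h2
  rw [h1, zero_div] at h2
  exact lt_irrefl _ h2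

theorem supp_P {y : Y} {x : A ⊕ (B × Fin d.k) → X} (h : d.Pi y x ≠ 0) {a : A}
    (ha : a ∈ d.F) {b : B} (hb : a ∈ d.N b) :
    Pk1 d.α d.c d.W (fun j => x (d.κ b j)) (x (Sum.inl a)) ≠ 0 :=
  Ker.Pk1_ne (d.supp_ph h ha hb).ne'

end Dt

end Vale.Agent.P050.R2.H901
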