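import Vale.Agent.P050.R2.H901.Defs

/-!
Kernel facts used in the proof of the main inequality: statements.
-/

namespace Vale.Agent.P050.R2.H901

open Finset

/-- a normalised two-sided kernel of positive mean -/
structure Ker {X Y : Type} [Fintype X] [Fintype Y] (α : X → ℝ) (c : Y → ℝ) (W : X → Y → ℝ) :
    Prop where
  a0 : ∀ x, 0 ≤ α x
  a1 : ∑ x, α x = 1
  c0 : ∀ y, 0 ≤ c y
  c1 : ∑ y, c y = 1
  W0 : ∀ x y, 0 ≤ W x y
  p0 : 0 < pp α c W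

section defs2

variable {X Y : Type} [Fintype X] [Fintype Y]

/-- normalised row sum -/
noncomputable def rd (α : X → ℝ) (c : Y → ℝ) (W : X → Y → ℝ) (y : Y) : ℝ := dd α W y / pp α c W

/-- normalised codegree -/
noncomputable def FF (α : X → ℝ) (c : Y → ℝ) (W : X → Y → ℝ) {ι : Type} [Fintype ι] (ξ : ι → X) : ℝ :=
  (∑ y, c y * ∏ i, W (ξ i) y) / pp α c W ^ Fintype.card ι

/-- mean of `log rd` over the common neighbour of `k + 1` points -/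
noncomputable def Rk (α : X → ℝ) (c : Y → ℝ) (W : X → Y → ℝ) {k : ℕ} (ρ : Fin k → X) (x : X) : ℝ :=
  ∑ z, (mm α c W z * (∏ j, ee α W z (ρ j)) * ee α W z x / Pk1 α c W ρ x) * Real.log (rd α c W z)

end defs2

/-- first Jensen step for the common neighbour -/
def K1Stmt : Prop :=
  ∀ (X Y : Type) [Fintype X] [Fintype Y] (α : X → ℝ) (c : Y → ℝ) (W : X → Y → ℝ) (k : ℕ),
    Ker α c W → ∃ Ψ : (Fin k → X) → X → ℝ, (∀ ρ x, 0 ≤ Ψ ρ x) ∧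
      (∀ ρ x, Pk1 α c W ρ x ≠ 0 → 0 < Ψ ρ x ∧ -Rk α c W ρ x ≤ Real.log (Ψ ρ x)) ∧
      ∑ ρ : Fin k → X, ∑ x, Pk1 α c W ρ x * Ψ ρ x ≤ 1

/-- second Jensen step for the common neighbour -/
def K2Stmt : Prop :=
  ∀ (X Y : Type) [Fintype X] [Fintype Y] (α : X → ℝ) (c : Y → ℝ) (W : X → Y → ℝ) (k : ℕ)
    (ι : Type) [Fintype ι] [DecidableEq ι] [Nonempty ι] (J : ι → Option (Fin k)),
    Function.Injective J → Ker α c W → ∃ Ψ : (Fin k → X) → X → ℝ, (∀ ρ x, 0 ≤ Ψ ρ x) ∧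
      (∀ ρ x, Pk1 α c W ρ x ≠ 0 → 0 < FF α c W (fun i => (J i).elim x ρ) ∧ 0 < Ψ ρ x ∧
        ((Fintype.card ι : ℝ) - 1) * Rk α c W ρ x
          - Real.log (FF α c W fun i => (J i).elim x ρ) ≤ Real.log (Ψ ρ x)) ∧
      ∑ ρ : Fin k → X, ∑ x, Pk1 α c W ρ x * Ψ ρ x ≤ 1

/-- the normalising factors of the blocks -/
def SumStmt : Prop :=
  ∀ (X Y : Type) [Fintype X] [Fintype Y] (α : X → ℝ) (c : Y → ℝ) (W : X → Y → ℝ) (k r : ℕ)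
    (θ : ℝ), 0 < θ → θ ≤ 1 → Ker α c W →
    (∀ y, mm α c W y ≠ 0 → 0 < ∑ ξ, α ξ *
      (∑ ρ : Fin k → X, (∏ j, ee α W y (ρ j)) * ph α c W ρ ξ ^ θ) ^ r) ∧
    -(r * (1 - θ) * gg α c W k) ≤ ∑ y, mm α c W y * Real.log (∑ ξ, α ξ *
      (∑ ρ : Fin k → X, (∏ j, ee α W y (ρ j)) * ph α c W ρ ξ ^ θ) ^ r)

end Vale.Agent.P050.R2.H901
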