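import Vale.Agent.P050.R2.H901.Defs2
import Vale.Agent.P050.R2.H901.Prob

/-!
Basic facts on a normalised kernel.
-/

namespace Vale.Agent.P050.R2.H901

open Finset

section

variable {X Y : Type} [Fintype X] [Fintype Y] {α : X → ℝ} {c : Y → ℝ} {W : X → Y → ℝ}

namespace Ker

variable (K : Ker α c W)
include K

theorem dd0 (y : Y) : 0 ≤ dd α W y := sum_nonneg fun x _ => mul_nonneg (K.a0 x) (K.W0 x y)

omit K in
theorem pp_eq : pp α c W = ∑ y, c y * dd α W y := by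
  unfold pp dd
  rw [Finset.sum_comm]
  refine Finset.sum_congr rfl fun y _ => ?_
  rw [Finset.mul_sum]
  exact Finset.sum_congr rfl fun x _ => by ring

theorem mm0 (y : Y) : 0 ≤ mm α c W y := div_nonneg (mul_nonneg (K.c0 y) (K.dd0 y)) K.p0.le

theorem mm1 : ∑ y, mm α c W y = 1 := by
  unfold mm
  rw [← Finset.sum_div, ← pp_eq, div_self K.p0.ne']

theorem ee0 (y : Y) (x : X) : 0 ≤ ee α W y x :=
  div_nonneg (mul_nonneg (K.a0 x) (K.W0 x y)) (K.dd0 y)

theorem cpos {y : Y} (h : mm α c W y ≠ 0) : 0 < c y :=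
  lt_of_le_of_ne (K.c0 y) fun e => h (by simp [mm, ← e])

theorem dpos {y : Y} (h : mm α c W y ≠ 0) : 0 < dd α W y :=
  lt_of_le_of_ne (K.dd0 y) fun e => h (by simp [mm, ← e])

theorem mpos {y : Y} (h : mm α c W y ≠ 0) : 0 < mm α c W y :=
  lt_of_le_of_ne (K.mm0 y) (Ne.symm h)

theorem rpos {y : Y} (h : mm α c W y ≠ 0) : 0 < rd α c W y := div_pos (K.dpos h) K.p0

theorem rd0 (y : Y) : 0 ≤ rd α c W y := div_nonneg (K.dd0 y) K.p0.le

omit [Fintype Y] K in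
theorem ee1 {y : Y} (h : dd α W y ≠ 0) : ∑ x, ee α W y x = 1 := by
  unfold ee
  rw [← Finset.sum_div]
  exact div_self h

theorem ee1' {y : Y} (h : mm α c W y ≠ 0) : ∑ x, ee α W y x = 1 := ee1 (K.dpos h).ne'

theorem apos {y : Y} {x : X} (h : ee α W y x ≠ 0) : 0 < α x :=
  lt_of_le_of_ne (K.a0 x) fun e => h (by simp [ee, ← e])

theorem Wpos {y : Y} {x : X} (h : ee α W y x ≠ 0) : 0 < W x y :=
  lt_of_le_of_ne (K.W0 x y) fun e => h (by simp [ee, ← e])

/-- star identity -/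
theorem star {ι : Type} [Fintype ι] [Nonempty ι] (ξ : ι → X) (y : Y) :
    mm α c W y * rd α c W y ^ (Fintype.card ι - 1) * ∏ i, ee α W y (ξ i)
      = (∏ i, α (ξ i)) * (c y * ∏ i, W (ξ i) y) / pp α c W ^ Fintype.card ι := by
  by_cases hd : dd α W y = 0
  · have e1 : ∀ x, α x * W x y = 0 := by
      intro x
      have := (Finset.sum_eq_zero_iff_of_nonneg
        (fun x _ => mul_nonneg (K.a0 x) (K.W0 x y))).1 hd x (mem_univ x)
      exact this
    have e2 : (∏ i, α (ξ i)) * (∏ i, W (ξ i) y) = 0 := by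
      rw [← Finset.prod_mul_distrib]
      obtain ⟨i⟩ := ‹Nonempty ι›
      exact Finset.prod_eq_zero (mem_univ i) (e1 _)
    have e3 : mm α c W y = 0 := by simp [mm, hd]
    rw [e3, zero_mul, zero_mul, show (∏ i, α (ξ i)) * (c y * ∏ i, W (ξ i) y)
      = c y * ((∏ i, α (ξ i)) * ∏ i, W (ξ i) y) by ring, e2, mul_zero, zero_div]
  · have hp := K.p0.ne'
    have hn : 0 < Fintype.card ι := Fintype.card_pos
    obtain ⟨n, hn⟩ : ∃ n, Fintype.card ι = n + 1 := ⟨Fintype.card ι - 1, by omega⟩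
    unfold ee mm rd
    rw [Finset.prod_div_distrib, Finset.prod_mul_distrib, Finset.prod_const, Finset.card_univ, hn,
      Nat.add_sub_cancel, div_pow, pow_succ (dd α W y), pow_succ (pp α c W)]
    field_simp

theorem FF0 {ι : Type} [Fintype ι] (ξ : ι → X) : 0 ≤ FF α c W ξ :=
  div_nonneg (sum_nonneg fun y _ => mul_nonneg (K.c0 y) (prod_nonneg fun _ _ => K.W0 _ _))
    (pow_nonneg K.p0.le _)

theorem sum_star {ι : Type} [Fintype ι] [Nonempty ι] (ξ : ι → X) :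
    ∑ y, mm α c W y * rd α c W y ^ (Fintype.card ι - 1) * ∏ i, ee α W y (ξ i)
      = (∏ i, α (ξ i)) * FF α c W ξ := by
  simp_rw [K.star ξ]
  unfold FF
  rw [← Finset.sum_div, ← Finset.mul_sum, mul_div_assoc]

/-- the codegree is positive on the support -/
theorem FFpos {ι : Type} [Fintype ι] {ξ : ι → X} {y : Y} (hm : mm α c W y ≠ 0)
    (h : ∀ i, ee α W y (ξ i) ≠ 0) : 0 < FF α c W ξ := by
  refine div_pos ?_ (pow_pos K.p0 _)
  have h1 : 0 < ∏ i, W (ξ i) y := Finset.prod_pos fun i _ => K.Wpos (h i)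
  refine lt_of_lt_of_le (mul_pos (K.cpos hm) h1) ?_
  exact Finset.single_le_sum (f := fun y => c y * ∏ i, W (ξ i) y)
    (fun y _ => mul_nonneg (K.c0 y) (prod_nonneg fun i _ => K.W0 _ _)) (mem_univ y)

/-- integration against the star law with the codegree in the denominator -/
theorem sum_star_div {ι : Type} [Fintype ι] [DecidableEq ι] [Nonempty ι] {ψ : (ι → X) → ℝ} (hψ : ∀ ξ, 0 ≤ ψ ξ) :
    ∑ y, mm α c W y * (rd α c W y ^ (Fintype.card ι - 1) *
      ∑ ξ : ι → X, (∏ i, ee α W y (ξ i)) * (ψ ξ / FF α c W ξ))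
      ≤ ∑ ξ : ι → X, (∏ i, α (ξ i)) * ψ ξ := by
  have e : ∀ y, mm α c W y * (rd α c W y ^ (Fintype.card ι - 1) *
      ∑ ξ : ι → X, (∏ i, ee α W y (ξ i)) * (ψ ξ / FF α c W ξ))
      = ∑ ξ : ι → X, (mm α c W y * rd α c W y ^ (Fintype.card ι - 1) * ∏ i, ee α W y (ξ i))
        * (ψ ξ / FF α c W ξ) := by
    intro y
    rw [Finset.mul_sum, Finset.mul_sum]
    exact Finset.sum_congr rfl fun ξ _ => by ring
  simp_rw [e]
  rw [Finset.sum_comm]
  refine Finset.sum_le_sum fun ξ _ => ?_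
  rw [← Finset.sum_mul, K.sum_star ξ, mul_assoc]
  refine mul_le_mul_of_nonneg_left ?_ (prod_nonneg fun i _ => K.a0 _)
  by_cases h : FF α c W ξ = 0
  · rw [h, zero_mul]
    exact hψ ξ
  · rw [mul_div_cancel₀ _ h]

theorem Pk0 {k : ℕ} (ρ : Fin k → X) : 0 ≤ Pk α c W ρ :=
  sum_nonneg fun y _ => mul_nonneg (K.mm0 y) (prod_nonneg fun _ _ => K.ee0 _ _)

theorem Pk10 {k : ℕ} (ρ : Fin k → X) (x : X) : 0 ≤ Pk1 α c W ρ x :=
  sum_nonneg fun y _ => mul_nonneg (mul_nonneg (K.mm0 y) (prod_nonneg fun _ _ => K.ee0 _ _))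
    (K.ee0 _ _)

theorem ph0 {k : ℕ} (ρ : Fin k → X) (x : X) : 0 ≤ ph α c W ρ x :=
  div_nonneg (K.Pk10 ρ x) (mul_nonneg (K.Pk0 ρ) (K.a0 x))

theorem Pk1_zero {k : ℕ} {ρ : Fin k → X} {x : X} (h : Pk α c W ρ * α x = 0) :
    Pk1 α c W ρ x = 0 := by
  rcases mul_eq_zero.1 h with h | h
  · have h' := (Finset.sum_eq_zero_iff_of_nonneg (fun y _ => mul_nonneg (K.mm0 y)
      (prod_nonneg fun _ _ => K.ee0 _ _))).1 h
    refine Finset.sum_eq_zero fun y hy => ?_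
    rw [h' y hy, zero_mul]
  · refine Finset.sum_eq_zero fun y hy => ?_
    rw [show ee α W y x = 0 by simp [ee, h], mul_zero]

/-- `Pk1 = Pk * α * ph` -/
theorem Pk1_eq {k : ℕ} (ρ : Fin k → X) (x : X) :
    Pk α c W ρ * (α x * ph α c W ρ x) = Pk1 α c W ρ x := by
  by_cases h : Pk α c W ρ * α x = 0
  · rw [K.Pk1_zero h, ← mul_assoc, h, zero_mul]
  · unfold ph
    rw [← mul_assoc, mul_div_cancel₀ _ h]

theorem sum_Pk1 {k : ℕ} (ρ : Fin k → X) : ∑ x, Pk1 α c W ρ x = Pk α c W ρ := by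
  unfold Pk1 Pk
  rw [Finset.sum_comm]
  refine Finset.sum_congr rfl fun y _ => ?_
  rw [← Finset.mul_sum]
  by_cases h : mm α c W y = 0
  · rw [h]; ring
  · rw [K.ee1' h, mul_one]

theorem sum_Pk {k : ℕ} : ∑ ρ : Fin k → X, Pk α c W ρ = 1 := by
  unfold Pk
  rw [Finset.sum_comm, ← K.mm1]
  refine Finset.sum_congr rfl fun y _ => ?_
  rw [← Finset.mul_sum]
  by_cases h : mm α c W y = 0
  · rw [h]; ring
  · have := sum_wt_one (V := Fin k) (μ := fun _ => ee α W y) (fun _ => K.ee1' h)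
    unfold wt at this
    rw [this, mul_one]

/-- the further point has total weight at most one -/
theorem sum_ph_le {k : ℕ} (ρ : Fin k → X) : ∑ x, α x * ph α c W ρ x ≤ 1 := by
  by_cases h : Pk α c W ρ = 0
  · have : ∀ x, α x * ph α c W ρ x = 0 := fun x => by simp [ph, h]
    simp [this]
  · have h1 := K.sum_Pk1 ρ
    simp_rw [← K.Pk1_eq ρ] at h1
    rw [← Finset.mul_sum] at h1
    have := mul_left_cancel₀ h (h1.trans (mul_one _).symm)
    exact this.le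

theorem sum_ph_eq {k : ℕ} {ρ : Fin k → X} (h : Pk α c W ρ ≠ 0) :
    ∑ x, α x * ph α c W ρ x = 1 := by
  have h1 := K.sum_Pk1 ρ
  simp_rw [← K.Pk1_eq ρ] at h1
  rw [← Finset.mul_sum] at h1
  exact mul_left_cancel₀ h (h1.trans (mul_one _).symm)

/-- a further point on the support has positive density -/
theorem Pk1pos {k : ℕ} {ρ : Fin k → X} {x : X} {y : Y} (hm : mm α c W y ≠ 0)
    (hρ : ∀ j, ee α W y (ρ j) ≠ 0) (hx : ee α W y x ≠ 0) : 0 < Pk1 α c W ρ x := by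
  have h1 : 0 < ∏ j, ee α W y (ρ j) := Finset.prod_pos fun j _ =>
    lt_of_le_of_ne (K.ee0 _ _) (Ne.symm (hρ j))
  have h2 : 0 < ee α W y x := lt_of_le_of_ne (K.ee0 _ _) (Ne.symm hx)
  refine lt_of_lt_of_le (mul_pos (mul_pos (K.mpos hm) h1) h2) ?_
  exact Finset.single_le_sum (f := fun y => mm α c W y * (∏ j, ee α W y (ρ j)) * ee α W y x)
    (fun y _ => mul_nonneg (mul_nonneg (K.mm0 y) (prod_nonneg fun _ _ => K.ee0 _ _))
    (K.ee0 _ _)) (mem_univ y)

theorem ph_ne {k : ℕ} {ρ : Fin k → X} {x : X} (h : Pk1 α c W ρ x ≠ 0) : 0 < ph α c W ρ x := by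
  refine lt_of_le_of_ne (K.ph0 ρ x) fun e => h ?_
  rw [← K.Pk1_eq, ← e, mul_zero, mul_zero]

omit K in
theorem Pk1_ne {k : ℕ} {ρ : Fin k → X} {x : X} (h : ph α c W ρ x ≠ 0) : Pk1 α c W ρ x ≠ 0 :=
  fun e => h (by simp [ph, e])

/-- entropy of `y` -/
theorem eta_nonneg : 0 ≤ ∑ y, mm α c W y * Real.log (rd α c W y) := by
  have h := jensen (q := mm α c W) (u := fun y => (rd α c W y)⁻¹) K.mm0 K.mm1
    (fun y hy => inv_pos.2 (K.rpos hy))
  have h2 : ∑ y, mm α c W y * (rd α c W y)⁻¹ ≤ 1 := by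
    rw [← K.c1]
    refine Finset.sum_le_sum fun y _ => ?_
    by_cases hm : mm α c W y = 0
    · rw [hm, zero_mul]
      exact K.c0 y
    · refine le_of_eq ?_
      unfold mm rd
      have h1 := (K.dpos hm).ne'
      have h2 := K.p0.ne'
      field_simp
  have h3 := h.2.trans (Real.log_nonpos h.1.le h2)
  simp only [Real.log_inv, mul_neg, Finset.sum_neg_distrib] at h3
  linarith

end Ker

end

end Vale.Agent.P050.R2.H901
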