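import Vale.Agent.P050.R2.H901.Ker

/-!
The law with tilted blocks.
-/

namespace Vale.Agent.P050.R2.H901

open Finset

/-- arms with a common centre -/
theorem block_norm {V X : Type} [Fintype V] [DecidableEq V] [Fintype X] {μ : V → X → ℝ}
    (h : ∀ v, ∑ ξ, μ v ξ = 1) {B : Type} [DecidableEq B] (I : Finset B) {k : ℕ}
    (κ : B → Fin k → V) (v0 : V) (h1 : ∀ b ∈ I, Function.Injective (κ b))
    (h2 : ∀ b ∈ I, ∀ b' ∈ I, b ≠ b' → ∀ j j', κ b j ≠ κ b' j')
    (h3 : ∀ b ∈ I, ∀ j, κ b j ≠ v0) (G : B → (Fin k → X) → X → ℝ) :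
    ∑ x : V → X, wt μ x * ∏ b ∈ I, G b (fun j => x (κ b j)) (x v0)
      = ∑ ξ, μ v0 ξ * ∏ b ∈ I, ∑ ρ : Fin k → X, (∏ j, μ (κ b j) (ρ j)) * G b ρ ξ := by
  classical
  have e : ∀ x : V → X, wt μ x * ∏ b ∈ I, G b (fun j => x (κ b j)) (x v0)
      = ∑ ξ, wt μ x * ((if x v0 = ξ then 1 else 0) * ∏ b ∈ I, G b (fun j => x (κ b j)) ξ) := by
    intro x
    rw [Finset.sum_eq_single (x v0)]
    · simp
    · intro ξ _ hξ
      rw [if_neg (Ne.symm hξ)]
      ring
    · intro hh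
      exact absurd (mem_univ _) hh
  simp_rw [e]
  rw [Finset.sum_comm]
  refine Finset.sum_congr rfl fun ξ _ => ?_
  have hd : ∀ b ∈ I, Dep (univ.image (κ b)) (fun x : V → X => G b (fun j => x (κ b j)) ξ) := by
    intro b _ x x' hx
    have : (fun j => x (κ b j)) = fun j => x' (κ b j) := by
      funext j
      exact hx _ (mem_image_of_mem _ (mem_univ j))
    simp only [this]
  have hd0 : Dep {v0} (fun x : V → X => if x v0 = ξ then (1 : ℝ) else 0) := by
    intro x x' hx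
    simp only
    rw [hx v0 (mem_singleton_self _)]
  have hdis : Disjoint {v0} (I.biUnion fun b => univ.image (κ b)) := by
    rw [Finset.disjoint_singleton_left, Finset.mem_biUnion]
    rintro ⟨b, hb, hv⟩
    obtain ⟨j, _, hj⟩ := Finset.mem_image.1 hv
    exact h3 b hb j hj
  rw [indep h hdis hd0 (Dep.prod hd), sum_wt_single h]
  congr 1
  rw [indep_prod h I hd ?_]
  · refine Finset.prod_congr rfl fun b hb => ?_
    exact marg h (h1 b hb) (fun ρ => G b ρ ξ)
  · intro b hb b' hb' hne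
    rw [Finset.disjoint_left]
    intro v hv hv'
    obtain ⟨j, _, hj⟩ := Finset.mem_image.1 hv
    obtain ⟨j', _, hj'⟩ := Finset.mem_image.1 hv'
    exact h2 b hb b' hb' hne j j' (hj.trans hj'.symm)

/-- marginal law of `k + 1` coordinates -/
theorem marg2 {V X : Type} [Fintype V] [DecidableEq V] [Fintype X] {μ : V → X → ℝ}
    (h : ∀ v, ∑ ξ, μ v ξ = 1) {k : ℕ} {κ : Fin k → V} {v0 : V} (h1 : Function.Injective κ)
    (h3 : ∀ j, κ j ≠ v0) (G : (Fin k → X) → X → ℝ) :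
    ∑ x : V → X, wt μ x * G (fun j => x (κ j)) (x v0)
      = ∑ ξ, μ v0 ξ * ∑ ρ : Fin k → X, (∏ j, μ (κ j) (ρ j)) * G ρ ξ := by
  have := block_norm h ({()} : Finset Unit) (fun _ => κ) v0 (fun _ _ => h1)
    (fun b _ b' _ hne => absurd (Subsingleton.elim b b') hne) (fun _ _ => h3) (fun _ => G)
  simpa using this



end Vale.Agent.P050.R2.H901
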