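import Vale.Agent.P050.R2.H901.Core2

/-!
A second law: exact star laws on all neighbourhoods.
-/

namespace Vale.Agent.P050.R2.H901

open Finset

/-- resampling the coordinates in `C` -/
theorem cond_out {V X : Type} [Fintype V] [DecidableEq V] [Fintype X] {μ : V → X → ℝ}
    (h1 : ∀ v, ∑ ξ, μ v ξ = 1) (C : Finset V) (g : (V → X) → ℝ) {H : (V → X) → ℝ}
    (hH : Dep (univ \ C) H)
    (hg : ∀ x : V → X, (∀ v, v ∉ C → μ v (x v) ≠ 0) →
      ∑ x' : V → X, wt μ x' * g (fun v => if v ∈ C then x' v else x v) = 1) :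
    ∑ x, wt μ x * (g x * H x) = ∑ x, wt μ x * H x := by
  have e1 : ∑ x, wt μ x * (g x * H x)
      = ∑ p : (V → X) × (V → X), wt μ p.1 * wt μ p.2 * (g p.1 * H p.1) := by
    rw [← Finset.univ_product_univ, Finset.sum_product]
    refine Finset.sum_congr rfl fun x _ => ?_
    have : ∑ y : V → X, wt μ x * wt μ y * (g x * H x)
        = wt μ x * (g x * H x) * ∑ y : V → X, wt μ y := by
      rw [Finset.mul_sum]
      exact Finset.sum_congr rfl fun y _ => by ring
    rw [this, sum_wt_one h1, mul_one]
  rw [e1, ← Equiv.sum_comp (mix (X := X) (univ \ C))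
    (fun p : (V → X) × (V → X) => wt μ p.1 * wt μ p.2 * (g p.1 * H p.1))]
  have e2 : ∀ p : (V → X) × (V → X), wt μ (mix (univ \ C) p).1 * wt μ (mix (univ \ C) p).2 *
      (g (mix (univ \ C) p).1 * H (mix (univ \ C) p).1)
      = wt μ p.1 * H p.1 * (wt μ p.2 * g (fun v => if v ∈ C then p.2 v else p.1 v)) := by
    intro p
    have h2 : H (mix (univ \ C) p).1 = H p.1 := hH _ _ fun v hv => by
      simp only [mix, Equiv.coe_fn_mk, hv, if_true]
    have h3 : (mix (univ \ C) p).1 = fun v => if v ∈ C then p.2 v else p.1 v := by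
      funext v
      by_cases hv : v ∈ C <;> simp [mix, hv]
    rw [h2, wt_mix, h3]
    ring
  rw [Finset.sum_congr rfl fun p _ => e2 p, ← Finset.univ_product_univ, Finset.sum_product]
  refine Finset.sum_congr rfl fun x _ => ?_
  simp only
  rw [← Finset.mul_sum]
  by_cases hx : ∀ v, v ∉ C → μ v (x v) ≠ 0
  · rw [hg x hx, mul_one]
  · have : wt μ x = 0 := by
      obtain ⟨v, hv⟩ := not_forall.1 hx
      have h0 : μ v (x v) = 0 := by
        by_contra h
        exact hv fun _ => h
      exact Finset.prod_eq_zero (mem_univ v) h0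
    rw [this]
    ring

/-- a function of some coordinates -/
theorem exists_fac {V X : Type} [Nonempty X] {T : Finset V} {G : (V → X) → ℝ}
    (hG : Dep T G) : ∃ g : (↥T → X) → ℝ, ∀ x, G x = g fun i => x i.1 := by
  classical
  obtain ⟨x0⟩ := ‹Nonempty X›
  refine ⟨fun ξ => G fun v => if h : v ∈ T then ξ ⟨v, h⟩ else x0, fun x => ?_⟩
  refine hG _ _ fun v hv => ?_
  simp [hv]

section star

variable {A X Y : Type} [Fintype A] [DecidableEq A] [Fintype X] [Fintype Y]

/-- the star law on `T` -/
noncomputable def St (α : X → ℝ) (c : Y → ℝ) (W : X → Y → ℝ) (T : Finset A) (x : A → X) : ℝ :=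
  ∑ z, mm α c W z * ∏ v ∈ T, ee α W z (x v)

/-- expectation under the star law -/
noncomputable def Es (α : X → ℝ) (c : Y → ℝ) (W : X → Y → ℝ) (G : (A → X) → ℝ) : ℝ :=
  ∑ z, mm α c W z * ∑ x : A → X, (∏ v, ee α W z (x v)) * G x

variable {α : X → ℝ} {c : Y → ℝ} {W : X → Y → ℝ} (K : Ker α c W)
include K

omit [Fintype A] [DecidableEq A] in
theorem St0 (T : Finset A) (x : A → X) : 0 ≤ St α c W T x :=
  sum_nonneg fun z _ => mul_nonneg (K.mm0 z) (prod_nonneg fun _ _ => K.ee0 _ _)

omit [Fintype A] [DecidableEq A] in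
theorem St_pos {T : Finset A} {x : A → X} {y : Y} (hy : mm α c W y ≠ 0)
    (h : ∀ v ∈ T, ee α W y (x v) ≠ 0) : 0 < St α c W T x := by
  have h1 : 0 < ∏ v ∈ T, ee α W y (x v) := Finset.prod_pos fun v hv =>
    lt_of_le_of_ne (K.ee0 _ _) (Ne.symm (h v hv))
  refine lt_of_lt_of_le (mul_pos (K.mpos hy) h1) ?_
  exact Finset.single_le_sum (f := fun z => mm α c W z * ∏ v ∈ T, ee α W z (x v))
    (fun z _ => mul_nonneg (K.mm0 z) (prod_nonneg fun _ _ => K.ee0 _ _)) (mem_univ y)

/-- the star expectation of the information of one more point -/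
theorem Es_ph (T : Finset A) {a : A} (ha : a ∉ T) :
    Es α c W (fun x => Real.log (St α c W (insert a T) x / (St α c W T x * α (x a))))
      = gg α c W T.card := by
  let e : Fin T.card ≃ ↥T := (Finset.equivFin T).symm
  have h1 : ∀ x : A → X, St α c W (insert a T) x / (St α c W T x * α (x a))
      = ph α c W (fun j => x (e j).1) (x a) := by
    intro x
    have h2 : ∀ z, ∏ v ∈ T, ee α W z (x v) = ∏ j, ee α W z (x (e j).1) := by
      intro z
      rw [← Finset.prod_coe_sort T (fun v => ee α W z (x v))]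
      exact (Equiv.prod_comp e (fun i : ↥T => ee α W z (x i.1))).symm
    unfold ph Pk1 Pk St
    simp_rw [Finset.prod_insert ha, h2]
    congr 1
    exact Finset.sum_congr rfl fun z _ => by ring
  simp_rw [h1]
  unfold Es gg
  have h3 : ∀ z, mm α c W z * ∑ x : A → X, (∏ v, ee α W z (x v)) *
      Real.log (ph α c W (fun j => x (e j).1) (x a))
      = ∑ ξ, ∑ ρ : Fin T.card → X, (mm α c W z * (∏ j, ee α W z (ρ j)) *
        ee α W z ξ) * Real.log (ph α c W ρ ξ) := by
    intro z
    by_cases hz : mm α c W z = 0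
    · simp [hz]
    · have hm := marg2 (V := A) (μ := fun _ => ee α W z) (fun _ => K.ee1' hz)
        (κ := fun j => (e j).1) (v0 := a)
        (fun i j hij => e.injective (Subtype.ext hij))
        (fun j hj => ha (hj ▸ (e j).2))
        (fun ρ ξ => Real.log (ph α c W ρ ξ))
      unfold wt at hm
      rw [hm, Finset.mul_sum]
      refine Finset.sum_congr rfl fun ξ _ => ?_
      rw [Finset.mul_sum, Finset.mul_sum]
      exact Finset.sum_congr rfl fun ρ _ => by ring
  symm
  rw [Finset.sum_congr rfl fun y _ => h3 y, Finset.sum_comm]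
  conv_rhs => rw [Finset.sum_comm]
  refine Finset.sum_congr rfl fun ξ _ => ?_
  rw [Finset.sum_comm]
  refine Finset.sum_congr rfl fun ρ _ => ?_
  unfold Pk1
  rw [Finset.sum_mul]

omit K in
theorem Es_add (G G' : (A → X) → ℝ) :
    Es α c W (fun x => G x + G' x) = Es α c W G + Es α c W G' := by
  classical
  unfold Es
  simp_rw [mul_add, Finset.sum_add_distrib, mul_add, Finset.sum_add_distrib]

omit K in
theorem Es_congr {G G' : (A → X) → ℝ} (h : ∀ z x, mm α c W z ≠ 0 →
    (∀ v, ee α W z (x v) ≠ 0) → G x = G' x) : Es α c W G = Es α c W G' := by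
  classical
  unfold Es
  refine Finset.sum_congr rfl fun z _ => ?_
  by_cases hz : mm α c W z = 0
  · rw [hz, zero_mul, zero_mul]
  · congr 1
    refine Finset.sum_congr rfl fun x _ => ?_
    by_cases hx : ∏ v, ee α W z (x v) = 0
    · rw [hx, zero_mul, zero_mul]
    · rw [h z x hz fun v => Finset.prod_ne_zero_iff.1 hx v (mem_univ v)]

/-- the information of several further points -/
theorem Es_cost {k : ℕ} (hmono : ∀ u, u ≤ k → gg α c W u ≤ gg α c W k) (U C : Finset A)
    (hUC : Disjoint U C) (hc : (U ∪ C).card ≤ k + 1) :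
    Es α c W (fun x => Real.log (St α c W (U ∪ C) x /
      (St α c W U x * ∏ a ∈ C, α (x a)))) ≤ C.card * gg α c W k := by
  induction C using Finset.induction_on with
  | empty =>
    simp only [Finset.union_empty, Finset.prod_empty, mul_one, Finset.card_empty, Nat.cast_zero,
      zero_mul]
    refine le_of_eq ?_
    have : Es α c W (fun x : A → X => Real.log (St α c W U x / St α c W U x))
        = Es α c W (fun _ : A → X => 0) := by
      refine Es_congr fun z x hz hx => ?_
      rw [div_self (St_pos K hz fun v _ => hx v).ne', Real.log_one]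
    rw [this]
    simp [Es]
  | insert a s ha ih =>
    rw [Finset.disjoint_insert_right] at hUC
    have hnm : a ∉ U ∪ s := by
      rw [Finset.mem_union]
      rintro (h | h)
      · exact hUC.1 h
      · exact ha h
    rw [Finset.union_insert, Finset.card_insert_of_notMem hnm] at hc
    have h1 := ih hUC.2 (by omega)
    have h2 := Es_ph K (U ∪ s) hnm
    have h3 := hmono (U ∪ s).card (by omega)
    have h4 : Es α c W (fun x => Real.log (St α c W (U ∪ insert a s) x /
        (St α c W U x * ∏ a ∈ insert a s, α (x a))))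
        = Es α c W (fun x => Real.log (St α c W (U ∪ s) x /
        (St α c W U x * ∏ a ∈ s, α (x a))) + Real.log (St α c W (insert a (U ∪ s)) x /
        (St α c W (U ∪ s) x * α (x a)))) := by
      refine Es_congr fun z x hz hx => ?_
      have p1 : 0 < St α c W (U ∪ s) x := St_pos K hz fun v _ => hx v
      have p2 : 0 < St α c W U x := St_pos K hz fun v _ => hx v
      have p3 : 0 < St α c W (insert a (U ∪ s)) x := St_pos K hz fun v _ => hx v
      have p4 : ∀ v, 0 < α (x v) := fun v => K.apos (hx v)
      have p5 : 0 < ∏ a ∈ s, α (x a) := Finset.prod_pos fun v _ => p4 v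
      rw [← Real.log_mul (div_pos p1 (mul_pos p2 p5)).ne' (div_pos p3 (mul_pos p1 (p4 a))).ne',
        Finset.union_insert, Finset.prod_insert ha]
      congr 1
      have := p1.ne'
      have := p2.ne'
      have := p5.ne'
      have := (p4 a).ne'
      field_simp
    rw [h4, Es_add, Finset.card_insert_of_notMem ha]
    push_cast
    linarith

end star

end Vale.Agent.P050.R2.H901
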