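import Vale.Agent.P050.R2.H901.Star1

/-!
The second law: a hub for its neighbours, and one new common neighbour for each class of
non-neighbours.
-/

namespace Vale.Agent.P050.R2.H901

open Finset

/-- law of one coordinate -/
theorem marg1 {V X : Type} [Fintype V] [DecidableEq V] [Fintype X] {μ : V → X → ℝ}
    (h : ∀ v, ∑ ξ, μ v ξ = 1) (a : V) (g : X → ℝ) :
    ∑ x : V → X, wt μ x * g (x a) = ∑ ξ, μ a ξ * g ξ := by
  have := marg2 h (k := 0) (κ := fun j => j.elim0) (v0 := a) (fun j => j.elim0)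
    (fun j => j.elim0) (fun _ ξ => g ξ)
  simpa using this

/-- the graph, the kernel and the classes -/
structure Ds (A B X Y : Type) [Fintype A] [DecidableEq A] [Fintype B] [DecidableEq B]
    [Fintype X] [Fintype Y] where
  α : X → ℝ
  c : Y → ℝ
  W : X → Y → ℝ
  N : B → Finset A
  b0 : B
  F : Finset A
  cl : A → ℕ
  K : Ker α c W
  hub : (N b0).Nonempty
  off : ∀ a ∈ F, a ∉ N b0
  cls : ∀ b, ∀ a ∈ F, ∀ a' ∈ F, a ∈ N b → a' ∈ N b → cl a = cl a'

namespace Ds

variable {A B X Y : Type} [Fintype A] [DecidableEq A] [Fintype B] [DecidableEq B]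
    [Fintype X] [Fintype Y] (d : Ds A B X Y)

/-- a class -/
def C (i : ℕ) : Finset A := d.F.filter fun a => d.cl a = i

/-- its surroundings -/
def U (i : ℕ) : Finset A := ((univ.filter fun b => ∃ a ∈ d.C i, a ∈ d.N b).biUnion d.N) \ d.F

/-- the classes -/
def I0 : Finset ℕ := d.F.image d.cl

/-- base laws -/
noncomputable def mu (y : Y) (v : A) : X → ℝ := if v ∈ d.F then d.α else ee d.α d.W y

/-- density of a class -/
noncomputable def h (i : ℕ) (x : A → X) : ℝ :=
  St d.α d.c d.W (d.U i ∪ d.C i) x / (St d.α d.c d.W (d.U i) x * ∏ a ∈ d.C i, d.α (x a))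

/-- the law -/
noncomputable def Pi (y : Y) (x : A → X) : ℝ :=
  mm d.α d.c d.W y * (wt (d.mu y) x * ∏ i ∈ d.I0, d.h i x)

/-- expectation -/
noncomputable def EE (G : Y → (A → X) → ℝ) : ℝ := ∑ y, ∑ x, d.Pi y x * G y x

theorem mu0 (y : Y) (v : A) (x : X) : 0 ≤ d.mu y v x := by
  unfold mu
  split_ifs
  · exact d.K.a0 x
  · exact d.K.ee0 y x

theorem mu1 {y : Y} (hy : mm d.α d.c d.W y ≠ 0) (v : A) : ∑ x, d.mu y v x = 1 := by
  unfold mu
  split_ifs
  · exact d.K.a1
  · exact d.K.ee1' hy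

theorem mu_mem {a : A} (ha : a ∈ d.F) (y : Y) : d.mu y a = d.α := by
  simp [mu, ha]

theorem mu_not_mem {a : A} (ha : a ∉ d.F) (y : Y) : d.mu y a = ee d.α d.W y := by
  simp [mu, ha]

theorem C_sub (i : ℕ) : d.C i ⊆ d.F := Finset.filter_subset _ _

theorem U_disj (i : ℕ) : Disjoint (d.U i) d.F := Finset.sdiff_disjoint

theorem UC_disj (i : ℕ) : Disjoint (d.U i) (d.C i) := (d.U_disj i).mono_right (d.C_sub i)

theorem C_disj {i j : ℕ} (h : i ≠ j) : Disjoint (d.C i) (d.C j) := by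
  rw [Finset.disjoint_left]
  intro a ha ha'
  exact h ((Finset.mem_filter.1 ha).2.symm.trans (Finset.mem_filter.1 ha').2)

theorem UC_disj' {i j : ℕ} (h : i ≠ j) : Disjoint (d.U i ∪ d.C i) (d.C j) := by
  rw [Finset.disjoint_union_left]
  exact ⟨(d.U_disj i).mono_right (d.C_sub j), d.C_disj h⟩

theorem dep_h (i : ℕ) : Dep (d.U i ∪ d.C i) (d.h i) := by
  intro x x' hx
  have h1 : ∀ z, ∏ v ∈ d.U i ∪ d.C i, ee d.α d.W z (x v)
      = ∏ v ∈ d.U i ∪ d.C i, ee d.α d.W z (x' v) := fun z =>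
    Finset.prod_congr rfl fun v hv => by rw [hx v hv]
  have h2 : ∀ z, ∏ v ∈ d.U i, ee d.α d.W z (x v) = ∏ v ∈ d.U i, ee d.α d.W z (x' v) := fun z =>
    Finset.prod_congr rfl fun v hv => by rw [hx v (Finset.mem_union_left _ hv)]
  have h3 : ∏ v ∈ d.C i, d.α (x v) = ∏ v ∈ d.C i, d.α (x' v) :=
    Finset.prod_congr rfl fun v hv => by rw [hx v (Finset.mem_union_right _ hv)]
  unfold h St
  simp_rw [h1, h2, h3]

theorem h0 (i : ℕ) (x : A → X) : 0 ≤ d.h i x :=
  div_nonneg (St0 d.K _ x) (mul_nonneg (St0 d.K _ x) (prod_nonneg fun _ _ => d.K.a0 _))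

/-- the conditional mean of the density of a class is one -/
theorem h_mean {y : Y} (hy : mm d.α d.c d.W y ≠ 0) (i : ℕ) (x : A → X)
    (hx : ∀ v, v ∉ d.C i → d.mu y v (x v) ≠ 0) :
    ∑ x' : A → X, wt (d.mu y) x' * d.h i (fun v => if v ∈ d.C i then x' v else x v) = 1 := by
  classical
  have hU : 0 < St d.α d.c d.W (d.U i) x := by
    refine St_pos d.K hy fun v hv => ?_
    have hvF : v ∉ d.F := fun h => Finset.disjoint_left.1 (d.U_disj i) hv h
    rw [← d.mu_not_mem hvF y]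
    exact hx v fun h => hvF (d.C_sub i h)
  have e1 : ∀ x' : A → X, d.h i (fun v => if v ∈ d.C i then x' v else x v)
      = ∑ z, mm d.α d.c d.W z * (∏ v ∈ d.U i, ee d.α d.W z (x v)) / St d.α d.c d.W (d.U i) x *
        ∏ a ∈ d.C i, (ee d.α d.W z (x' a) / d.α (x' a)) := by
    intro x'
    have h1 : ∀ z, ∏ v ∈ d.U i, ee d.α d.W z (if v ∈ d.C i then x' v else x v)
        = ∏ v ∈ d.U i, ee d.α d.W z (x v) := fun z =>
      Finset.prod_congr rfl fun v hv => by
        rw [if_neg fun h => Finset.disjoint_left.1 (d.UC_disj i) hv h]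
    have h2 : ∀ z, ∏ v ∈ d.C i, ee d.α d.W z (if v ∈ d.C i then x' v else x v)
        = ∏ v ∈ d.C i, ee d.α d.W z (x' v) := fun z =>
      Finset.prod_congr rfl fun v hv => by rw [if_pos hv]
    have h3 : ∏ v ∈ d.C i, d.α (if v ∈ d.C i then x' v else x v)
        = ∏ v ∈ d.C i, d.α (x' v) := Finset.prod_congr rfl fun v hv => by rw [if_pos hv]
    unfold h
    have h4 : St d.α d.c d.W (d.U i) (fun v => if v ∈ d.C i then x' v else x v)
        = St d.α d.c d.W (d.U i) x := by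
      unfold St
      simp_rw [h1]
    rw [h4]
    simp only [h3]
    unfold St
    rw [Finset.sum_div]
    refine Finset.sum_congr rfl fun z _ => ?_
    rw [Finset.prod_union (d.UC_disj i)]
    simp only [h1, h2]
    rw [Finset.prod_div_distrib]
    rw [div_mul_div_comm, mul_assoc]
  have e2 : ∀ z, mm d.α d.c d.W z ≠ 0 → ∑ x' : A → X, wt (d.mu y) x' *
      ∏ a ∈ d.C i, (ee d.α d.W z (x' a) / d.α (x' a)) = 1 := by
    intro z hz
    rw [indep_prod (d.mu1 hy) (d.C i) (T := fun a => {a})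
      (G := fun a x' => ee d.α d.W z (x' a) / d.α (x' a))]
    · refine Finset.prod_eq_one fun a ha => ?_
      rw [marg1 (d.mu1 hy) a (fun ξ => ee d.α d.W z ξ / d.α ξ), d.mu_mem (d.C_sub i ha),
        ← d.K.ee1' hz]
      refine Finset.sum_congr rfl fun ξ _ => ?_
      by_cases hα : d.α ξ = 0
      · have : ee d.α d.W z ξ = 0 := by simp [ee, hα]
        rw [this, hα, zero_mul]
      · rw [mul_div_cancel₀ _ hα]
    · intro a _ x1 x2 h12
      simp only [h12 a (mem_singleton_self _)]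
    · intro a _ a' _ hne
      rw [Finset.disjoint_singleton]
      exact hne
  simp_rw [e1, Finset.mul_sum]
  rw [Finset.sum_comm]
  have e3 : ∀ z, ∑ x' : A → X, wt (d.mu y) x' *
      (mm d.α d.c d.W z * (∏ v ∈ d.U i, ee d.α d.W z (x v)) / St d.α d.c d.W (d.U i) x *
        ∏ a ∈ d.C i, (ee d.α d.W z (x' a) / d.α (x' a)))
      = mm d.α d.c d.W z * (∏ v ∈ d.U i, ee d.α d.W z (x v)) / St d.α d.c d.W (d.U i) x := by
    intro z
    by_cases hz : mm d.α d.c d.W z = 0
    · simp [hz]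
    · have : ∀ x' : A → X, wt (d.mu y) x' *
          (mm d.α d.c d.W z * (∏ v ∈ d.U i, ee d.α d.W z (x v)) / St d.α d.c d.W (d.U i) x *
          ∏ a ∈ d.C i, (ee d.α d.W z (x' a) / d.α (x' a)))
          = mm d.α d.c d.W z * (∏ v ∈ d.U i, ee d.α d.W z (x v)) / St d.α d.c d.W (d.U i) x *
          (wt (d.mu y) x' * ∏ a ∈ d.C i, (ee d.α d.W z (x' a) / d.α (x' a))) := fun x' => by ring
      simp_rw [this]
      rw [← Finset.mul_sum, e2 z hz, mul_one]
  simp_rw [e3]
  rw [← Finset.sum_div]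
  exact div_self hU.ne'

/-- classes not met by `G` are integrated out -/
theorem int_out {y : Y} (hy : mm d.α d.c d.W y ≠ 0) (J : Finset ℕ)
    {T : Finset A} {G : (A → X) → ℝ} (hG : Dep T G) (hT : ∀ i ∈ J, Disjoint T (d.C i)) :
    ∑ x, wt (d.mu y) x * ((∏ i ∈ J, d.h i x) * G x) = ∑ x, wt (d.mu y) x * G x := by
  induction J using Finset.induction_on with
  | empty => simp
  | insert i s hi ih =>
    rw [← ih fun j hj => hT j (Finset.mem_insert_of_mem hj)]
    have e : ∀ x, wt (d.mu y) x * ((∏ i ∈ insert i s, d.h i x) * G x)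
        = wt (d.mu y) x * (d.h i x * ((∏ i ∈ s, d.h i x) * G x)) := by
      intro x
      rw [Finset.prod_insert hi]
      ring
    simp_rw [e]
    refine cond_out (d.mu1 hy) (d.C i) (d.h i) ?_ (fun x hx => d.h_mean hy i x hx)
    have h1 : Dep (univ \ d.C i) (fun x : A → X => ∏ j ∈ s, d.h j x) := by
      intro x x' hx
      refine Finset.prod_congr rfl fun j hj => d.dep_h j x x' fun v hv => hx v ?_
      have hne : j ≠ i := fun e => hi (e ▸ hj)
      exact Finset.mem_sdiff.2 ⟨mem_univ _, fun h =>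
        Finset.disjoint_left.1 (d.UC_disj' hne) hv h⟩
    have h2 : Dep (univ \ d.C i) G := by
      intro x x' hx
      refine hG x x' fun v hv => hx v ?_
      exact Finset.mem_sdiff.2 ⟨mem_univ _, fun h =>
        Finset.disjoint_left.1 (hT i (Finset.mem_insert_self _ _)) hv h⟩
    exact Dep.mul h1 h2

theorem mass_y {y : Y} (hy : mm d.α d.c d.W y ≠ 0) :
    ∑ x, wt (d.mu y) x * ∏ i ∈ d.I0, d.h i x = 1 := by
  have := d.int_out hy d.I0 (T := ∅) (G := fun _ => 1) (fun _ _ _ => rfl)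
    (fun a _ => Finset.disjoint_empty_left _)
  simp only [mul_one] at this
  rw [this, sum_wt_one (d.mu1 hy)]

theorem EE_y (G : Y → ℝ) : d.EE (fun y _ => G y) = ∑ y, mm d.α d.c d.W y * G y := by
  unfold EE Pi
  refine Finset.sum_congr rfl fun y _ => ?_
  by_cases hy : mm d.α d.c d.W y = 0
  · simp [hy]
  · rw [← Finset.sum_mul, ← Finset.mul_sum, d.mass_y hy, mul_one]

theorem Pi0 (y : Y) (x : A → X) : 0 ≤ d.Pi y x :=
  mul_nonneg (d.K.mm0 y) (mul_nonneg (wt_nonneg (d.mu0 y) x)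
    (prod_nonneg fun i _ => d.h0 i x))

theorem EE_jensen {u : Y → (A → X) → ℝ} (hu : ∀ y x, d.Pi y x ≠ 0 → 0 < u y x) :
    0 < d.EE u ∧ d.EE (fun y x => Real.log (u y x)) ≤ Real.log (d.EE u) := by
  have h1 : ∑ p : Y × (A → X), d.Pi p.1 p.2 = 1 := by
    rw [Fintype.sum_prod_type]
    have := d.EE_y (fun _ => 1)
    unfold EE at this
    simp only [mul_one] at this
    rw [this, d.K.mm1]
  have h2 := jensen (q := fun p : Y × (A → X) => d.Pi p.1 p.2)
    (u := fun p => u p.1 p.2) (fun p => d.Pi0 p.1 p.2) h1 (fun p hp => hu p.1 p.2 hp)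
  simp only [Fintype.sum_prod_type] at h2
  exact h2

theorem EE_congr {G G' : Y → (A → X) → ℝ}
    (h : ∀ y x, d.Pi y x ≠ 0 → G y x = G' y x) : d.EE G = d.EE G' := by
  unfold EE
  refine Finset.sum_congr rfl fun y _ => Finset.sum_congr rfl fun x _ => ?_
  by_cases hp : d.Pi y x = 0
  · rw [hp, zero_mul, zero_mul]
  · rw [h y x hp]

theorem EE_add (G G' : Y → (A → X) → ℝ) :
    d.EE (fun y x => G y x + G' y x) = d.EE G + d.EE G' := by
  unfold EE
  simp_rw [mul_add, Finset.sum_add_distrib]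

theorem EE_sub (G G' : Y → (A → X) → ℝ) :
    d.EE (fun y x => G y x - G' y x) = d.EE G - d.EE G' := by
  unfold EE
  simp_rw [mul_sub, Finset.sum_sub_distrib]

theorem EE_mul (r : ℝ) (G : Y → (A → X) → ℝ) :
    d.EE (fun y x => r * G y x) = r * d.EE G := by
  unfold EE
  rw [Finset.mul_sum]
  refine Finset.sum_congr rfl fun y _ => ?_
  rw [Finset.mul_sum]
  exact Finset.sum_congr rfl fun x _ => by ring

theorem EE_sum {ι : Type} (S : Finset ι) (G : ι → Y → (A → X) → ℝ) :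
    d.EE (fun y x => ∑ i ∈ S, G i y x) = ∑ i ∈ S, d.EE (G i) := by
  classical
  induction S using Finset.induction_on with
  | empty => simp [EE]
  | insert a s h ih =>
    simp_rw [Finset.sum_insert h]
    rw [EE_add, ih]

include d in
theorem X_ne : Nonempty X := by
  by_contra h
  have := d.K.a1
  rw [not_nonempty_iff] at h
  simp at this

/-- functions of the neighbours of the hub -/
theorem star1 {T : Finset A} (hT : Disjoint T d.F) {G : (A → X) → ℝ} (hG : Dep T G) :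
    d.EE (fun _ x => G x) = Es d.α d.c d.W G := by
  have := d.X_ne
  obtain ⟨g, hg⟩ := exists_fac hG
  unfold EE Pi Es
  refine Finset.sum_congr rfl fun y _ => ?_
  by_cases hy : mm d.α d.c d.W y = 0
  · simp [hy]
  · simp_rw [mul_assoc]
    rw [← Finset.mul_sum, d.int_out hy d.I0 hG fun i _ => hT.mono_right (d.C_sub i)]
    congr 1
    have h1 := marg (d.mu1 hy) (κ := fun i : ↥T => i.1) (fun i j hij => Subtype.ext hij) g
    have h2 := marg (V := A) (μ := fun _ => ee d.α d.W y) (fun _ => d.K.ee1' hy)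
      (κ := fun i : ↥T => i.1) (fun i j hij => Subtype.ext hij) g
    unfold wt at h2
    simp_rw [hg]
    rw [h1, h2]
    refine Finset.sum_congr rfl fun ξ _ => ?_
    congr 1
    refine Finset.prod_congr rfl fun i _ => ?_
    rw [d.mu_not_mem fun h => Finset.disjoint_left.1 hT i.2 h]

theorem St_id (j : ℕ) (x : A → X) :
    (∑ y, mm d.α d.c d.W y * ∏ v ∈ d.U j ∪ d.C j, d.mu y v (x v)) * d.h j x
      = St d.α d.c d.W (d.U j ∪ d.C j) x := by
  have e1 : ∑ y, mm d.α d.c d.W y * ∏ v ∈ d.U j ∪ d.C j, d.mu y v (x v)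
      = St d.α d.c d.W (d.U j) x * ∏ a ∈ d.C j, d.α (x a) := by
    unfold St
    rw [Finset.sum_mul]
    refine Finset.sum_congr rfl fun y _ => ?_
    rw [Finset.prod_union (d.UC_disj j), mul_assoc]
    congr 2
    · exact Finset.prod_congr rfl fun v hv => by
        rw [d.mu_not_mem fun h => Finset.disjoint_left.1 (d.U_disj j) hv h]
    · exact Finset.prod_congr rfl fun v hv => by rw [d.mu_mem (d.C_sub j hv)]
  rw [e1]
  unfold h
  by_cases h0 : St d.α d.c d.W (d.U j) x * ∏ a ∈ d.C j, d.α (x a) = 0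
  · rw [h0, zero_mul]
    symm
    rcases mul_eq_zero.1 h0 with h | h
    · have h' := (Finset.sum_eq_zero_iff_of_nonneg (fun z _ => mul_nonneg (d.K.mm0 z)
        (prod_nonneg fun _ _ => d.K.ee0 _ _))).1 h
      refine Finset.sum_eq_zero fun z hz => ?_
      rw [Finset.prod_union (d.UC_disj j), ← mul_assoc, h' z hz, zero_mul]
    · obtain ⟨a, ha, h⟩ := Finset.prod_eq_zero_iff.1 h
      refine Finset.sum_eq_zero fun z hz => ?_
      rw [Finset.prod_eq_zero (Finset.mem_union_right _ ha) (by simp [ee, h]), mul_zero]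
  · rw [mul_div_cancel₀ _ h0]

/-- functions of the surroundings of a class -/
theorem star2 {j : ℕ} (hj : j ∈ d.I0) {G : (A → X) → ℝ} (hG : Dep (d.U j ∪ d.C j) G) :
    d.EE (fun _ x => G x) = Es d.α d.c d.W G := by
  have := d.X_ne
  obtain ⟨g, hg⟩ := exists_fac hG
  obtain ⟨hh, hhg⟩ := exists_fac (d.dep_h j)
  have e1 : d.EE (fun _ x => G x) = ∑ y, mm d.α d.c d.W y *
      ∑ x, wt (d.mu y) x * (d.h j x * G x) := by
    unfold EE Pi
    refine Finset.sum_congr rfl fun y _ => ?_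
    by_cases hy : mm d.α d.c d.W y = 0
    · simp [hy]
    · simp_rw [mul_assoc]
      rw [← Finset.mul_sum, ← d.int_out hy (d.I0.erase j) (Dep.mul (d.dep_h j) hG)
        fun i hi => d.UC_disj' (Finset.ne_of_mem_erase hi).symm]
      congr 1
      refine Finset.sum_congr rfl fun x _ => ?_
      rw [← Finset.mul_prod_erase d.I0 _ hj]
      ring
  have e2 : ∀ y, mm d.α d.c d.W y * ∑ x, wt (d.mu y) x * (d.h j x * G x)
      = ∑ ξ : ↥(d.U j ∪ d.C j) → X, mm d.α d.c d.W y * (∏ i, d.mu y i.1 (ξ i)) *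
        (hh ξ * g ξ) := by
    intro y
    by_cases hy : mm d.α d.c d.W y = 0
    · simp [hy]
    · have h1 := marg (d.mu1 hy) (κ := fun i : ↥(d.U j ∪ d.C j) => i.1)
        (fun i j hij => Subtype.ext hij) (fun ξ => hh ξ * g ξ)
      simp_rw [hg, hhg]
      rw [h1, Finset.mul_sum]
      exact Finset.sum_congr rfl fun ξ _ => by ring
  have e3 : ∀ ξ : ↥(d.U j ∪ d.C j) → X, (∑ y, mm d.α d.c d.W y * ∏ i, d.mu y i.1 (ξ i)) * hh ξ
      = ∑ z, mm d.α d.c d.W z * ∏ i, ee d.α d.W z (ξ i) := by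
    intro ξ
    classical
    obtain ⟨x0⟩ := d.X_ne
    let x : A → X := fun v => if h : v ∈ d.U j ∪ d.C j then ξ ⟨v, h⟩ else x0
    have hx : (fun i : ↥(d.U j ∪ d.C j) => x i.1) = ξ := by
      funext i
      simp only [x, i.2, dif_pos]
    have h1 := d.St_id j x
    rw [hhg x, hx] at h1
    have h2 : ∀ y, ∏ v ∈ d.U j ∪ d.C j, d.mu y v (x v) = ∏ i : ↥(d.U j ∪ d.C j),
        d.mu y i.1 (ξ i) := by
      intro y
      rw [← Finset.prod_coe_sort (d.U j ∪ d.C j) (fun v => d.mu y v (x v))]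
      exact Finset.prod_congr rfl fun i _ => by rw [← hx]
    have h3 : St d.α d.c d.W (d.U j ∪ d.C j) x
        = ∑ z, mm d.α d.c d.W z * ∏ i, ee d.α d.W z (ξ i) := by
      unfold St
      refine Finset.sum_congr rfl fun z _ => ?_
      rw [← Finset.prod_coe_sort (d.U j ∪ d.C j) (fun v => ee d.α d.W z (x v))]
      congr 1
      exact Finset.prod_congr rfl fun i _ => by rw [← hx]
    simp_rw [h2] at h1
    rw [h1, h3]
  rw [e1, Finset.sum_congr rfl fun y _ => e2 y, Finset.sum_comm]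
  have e4 : ∀ ξ : ↥(d.U j ∪ d.C j) → X, ∑ y, mm d.α d.c d.W y * (∏ i, d.mu y i.1 (ξ i)) *
      (hh ξ * g ξ) = ∑ z, mm d.α d.c d.W z * (∏ i, ee d.α d.W z (ξ i)) * g ξ := by
    intro ξ
    rw [← Finset.sum_mul, ← mul_assoc, e3 ξ, Finset.sum_mul]
  rw [Finset.sum_congr rfl fun ξ _ => e4 ξ, Finset.sum_comm]
  unfold Es
  refine Finset.sum_congr rfl fun z _ => ?_
  by_cases hz : mm d.α d.c d.W z = 0
  · simp [hz]
  · have h2 := marg (V := A) (μ := fun _ => ee d.α d.W z) (fun _ => d.K.ee1' hz)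
      (κ := fun i : ↥(d.U j ∪ d.C j) => i.1) (fun i j hij => Subtype.ext hij) g
    unfold wt at h2
    simp_rw [hg]
    rw [h2, Finset.mul_sum]
    exact Finset.sum_congr rfl fun ξ _ => by ring

end Ds

end Vale.Agent.P050.R2.H901
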