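import Vale.Agent.P050.R2.H901.Star2

/-!
Comparison of the second law with the homomorphism density.
-/

namespace Vale.Agent.P050.R2.H901

open Finset

namespace Ds

variable {A B X Y : Type} [Fintype A] [DecidableEq A] [Fintype B] [DecidableEq B]
    [Fintype X] [Fintype Y] (d : Ds A B X Y)

/-- normalised codegree of the neighbourhood of `b` -/
noncomputable def fb (b : B) (x : A → X) : ℝ := FF d.α d.c d.W (fun i : ↥(d.N b) => x i.1)

theorem dep_fb (b : B) : Dep (d.N b) (d.fb b) := by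
  intro x x' hx
  have : (fun i : ↥(d.N b) => x i.1) = fun i => x' i.1 := by
    funext i
    exact hx _ i.2
  simp only [fb, this]

theorem supp_m {y : Y} {x : A → X} (h : d.Pi y x ≠ 0) : mm d.α d.c d.W y ≠ 0 :=
  fun e => h (by simp [Pi, e])

theorem supp_mu {y : Y} {x : A → X} (h : d.Pi y x ≠ 0) (v : A) : d.mu y v (x v) ≠ 0 :=
  fun e => h (by
    have : wt (d.mu y) x = 0 := Finset.prod_eq_zero (mem_univ v) e
    simp [Pi, this])

theorem supp_h {y : Y} {x : A → X} (h : d.Pi y x ≠ 0) {i : ℕ} (hi : i ∈ d.I0) :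
    0 < d.h i x :=
  lt_of_le_of_ne (d.h0 i x) fun e => h (by
    have : ∏ i ∈ d.I0, d.h i x = 0 := Finset.prod_eq_zero hi e.symm
    simp [Pi, this])

/-- a neighbourhood meeting a class lies in its surroundings -/
theorem sub_UC {b : B} {a : A} (ha : a ∈ d.F) (hab : a ∈ d.N b) :
    d.N b ⊆ d.U (d.cl a) ∪ d.C (d.cl a) := by
  intro v hv
  rw [Finset.mem_union]
  by_cases hvF : v ∈ d.F
  · exact Or.inr (Finset.mem_filter.2 ⟨hvF, d.cls b v hvF a ha hv hab⟩)
  · refine Or.inl (Finset.mem_sdiff.2 ⟨Finset.mem_biUnion.2 ⟨b, Finset.mem_filter.2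
      ⟨mem_univ _, a, Finset.mem_filter.2 ⟨ha, rfl⟩, hab⟩, hv⟩, hvF⟩)

theorem star (b : B) {G : (A → X) → ℝ} (hG : Dep (d.N b) G) :
    d.EE (fun _ x => G x) = Es d.α d.c d.W G := by
  by_cases hb : ∃ a ∈ d.F, a ∈ d.N b
  · obtain ⟨a, ha, hab⟩ := hb
    exact d.star2 (Finset.mem_image_of_mem _ ha) (hG.mono (d.sub_UC ha hab))
  · refine d.star1 ?_ hG
    rw [Finset.disjoint_left]
    exact fun a hab ha => hb ⟨a, ha, hab⟩

theorem fb_pos {y : Y} {x : A → X} (h : d.Pi y x ≠ 0) (b : B) : 0 < d.fb b x := by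
  by_cases hb : ∃ a ∈ d.F, a ∈ d.N b
  · obtain ⟨a, ha, hab⟩ := hb
    have h1 := (d.supp_h h (Finset.mem_image_of_mem d.cl ha)).ne'
    have h2 : St d.α d.c d.W (d.U (d.cl a) ∪ d.C (d.cl a)) x ≠ 0 := by
      intro e
      apply h1
      unfold Ds.h
      rw [e, zero_div]
    unfold St at h2
    obtain ⟨z, _, hz⟩ := Finset.exists_ne_zero_of_sum_ne_zero h2
    refine d.K.FFpos (y := z) (left_ne_zero_of_mul hz) fun i => ?_
    exact Finset.prod_ne_zero_iff.1 (right_ne_zero_of_mul hz) i.1 (d.sub_UC ha hab i.2)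
  · refine d.K.FFpos (d.supp_m h) fun i => ?_
    rw [← d.mu_not_mem (fun hi => hb ⟨i.1, hi, i.2⟩) y]
    exact d.supp_mu h i.1

theorem fb_eq (b : B) (x : A → X) :
    ∑ y, d.c y * ∏ i ∈ d.N b, d.W (x i) y = pp d.α d.c d.W ^ (d.N b).card * d.fb b x := by
  unfold fb FF
  rw [Fintype.card_coe, mul_div_cancel₀ _ (pow_ne_zero _ d.K.p0.ne')]
  refine Finset.sum_congr rfl fun y _ => ?_
  congr 1
  exact (Finset.prod_coe_sort (d.N b) (fun i => d.W (x i) y)).symm

/-- the integrand of the homomorphism density -/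
noncomputable def term (y : Y) (x : A → X) : ℝ :=
  (d.c y * ∏ i ∈ d.N d.b0, d.W (x i) y) * ((∏ i : A, d.α (x i)) *
    ∏ b ∈ univ.erase d.b0, ∑ z, d.c z * ∏ i ∈ d.N b, d.W (x i) z)

theorem sum_term : ∑ y, ∑ x, d.term y x = tt d.α d.c d.W d.N := by
  unfold term tt
  rw [Finset.sum_comm]
  refine Finset.sum_congr rfl fun x _ => ?_
  rw [← Finset.mul_prod_erase univ _ (mem_univ d.b0), ← Finset.sum_mul]
  ring

theorem term0 (y : Y) (x : A → X) : 0 ≤ d.term y x :=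
  mul_nonneg (mul_nonneg (d.K.c0 y) (prod_nonneg fun _ _ => d.K.W0 _ _))
    (mul_nonneg (prod_nonneg fun _ _ => d.K.a0 _) (prod_nonneg fun _ _ =>
      sum_nonneg fun _ _ => mul_nonneg (d.K.c0 _) (prod_nonneg fun _ _ => d.K.W0 _ _)))

/-- the test function -/
noncomputable def uu (y : Y) (x : A → X) : ℝ :=
  (rd d.α d.c d.W y ^ (Fintype.card ↥(univ \ d.F) - 1) *
    pp d.α d.c d.W ^ Fintype.card ↥(univ \ d.F) *
    ∏ b ∈ univ.erase d.b0, (pp d.α d.c d.W ^ (d.N b).card * d.fb b x)) /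
    ∏ i ∈ d.I0, d.h i x

theorem uu_le (hW : ∀ v, v ∉ d.F → v ∉ d.N d.b0 → ∀ x y, d.W x y ≤ 1) (y : Y) (x : A → X) :
    d.Pi y x * d.uu y x ≤ d.term y x := by
  classical
  obtain ⟨v0, hv0⟩ := d.hub
  have hoff : ∀ v ∈ d.N d.b0, v ∈ univ \ d.F := fun v hv =>
    Finset.mem_sdiff.2 ⟨mem_univ v, fun h => d.off v h hv⟩
  have : Nonempty ↥(univ \ d.F) := ⟨⟨v0, hoff v0 hv0⟩⟩
  by_cases hP : d.Pi y x = 0
  · rw [hP, zero_mul]
    exact d.term0 y x
  have hH : ∏ i ∈ d.I0, d.h i x ≠ 0 :=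
    (Finset.prod_pos fun i hi => d.supp_h hP hi).ne'
  have hst := d.K.star (fun i : ↥(univ \ d.F) => x i.1) y
  have hw : wt (d.mu y) x = (∏ a ∈ d.F, d.α (x a)) *
      ∏ i : ↥(univ \ d.F), ee d.α d.W y (x i.1) := by
    unfold wt
    rw [Finset.prod_coe_sort (univ \ d.F) (fun i => ee d.α d.W y (x i)), mul_comm,
      ← Finset.prod_sdiff (Finset.subset_univ d.F)]
    congr 1
    · refine Finset.prod_congr rfl fun i hi => ?_
      rw [d.mu_not_mem (Finset.mem_sdiff.1 hi).2]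
    · refine Finset.prod_congr rfl fun i hi => ?_
      rw [d.mu_mem hi]
  have hal : (∏ i : A, d.α (x i)) = (∏ i : ↥(univ \ d.F), d.α (x i.1)) *
      ∏ a ∈ d.F, d.α (x a) := by
    rw [Finset.prod_coe_sort (univ \ d.F) (fun i => d.α (x i)),
      Finset.prod_sdiff (Finset.subset_univ d.F)]
  have hWW : ∏ i : ↥(univ \ d.F), d.W (x i.1) y ≤ ∏ i ∈ d.N d.b0, d.W (x i) y := by
    rw [Finset.prod_coe_sort (univ \ d.F) (fun i => d.W (x i) y),
      ← Finset.prod_sdiff (show d.N d.b0 ⊆ univ \ d.F from hoff)]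
    refine mul_le_of_le_one_left (prod_nonneg fun _ _ => d.K.W0 _ _) ?_
    refine Finset.prod_le_one (fun _ _ => d.K.W0 _ _) fun i hi => ?_
    rw [Finset.mem_sdiff, Finset.mem_sdiff] at hi
    exact hW i hi.1.2 hi.2 _ _
  have hp := pow_ne_zero (Fintype.card ↥(univ \ d.F)) d.K.p0.ne'
  set Q := ∏ b ∈ univ.erase d.b0, (pp d.α d.c d.W ^ (d.N b).card * d.fb b x) with hQ
  have hQ0 : 0 ≤ Q := prod_nonneg fun _ _ => mul_nonneg (pow_nonneg d.K.p0.le _) (d.K.FF0 _)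
  have e1 : d.term y x = (d.c y * ∏ i ∈ d.N d.b0, d.W (x i) y) *
      (((∏ i : ↥(univ \ d.F), d.α (x i.1)) * ∏ a ∈ d.F, d.α (x a)) * Q) := by
    unfold term
    rw [hal, hQ]
    congr 2
    exact Finset.prod_congr rfl fun b _ => d.fb_eq b x
  set E := ∏ i : ↥(univ \ d.F), ee d.α d.W y (x i.1)
  set AA := ∏ i : ↥(univ \ d.F), d.α (x i.1)
  set FA := ∏ a ∈ d.F, d.α (x a)
  set WW := ∏ i : ↥(univ \ d.F), d.W (x i.1) y
  set W0 := ∏ i ∈ d.N d.b0, d.W (x i) y
  set H := ∏ i ∈ d.I0, d.h i x with hHd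
  set n := Fintype.card ↥(univ \ d.F) with hnd
  have e2 : d.Pi y x * d.uu y x
      = (mm d.α d.c d.W y * rd d.α d.c d.W y ^ (n - 1) * E) * pp d.α d.c d.W ^ n *
        (FA * Q) := by
    unfold Pi uu
    rw [hw, ← hHd, ← hQ, ← hnd]
    field_simp
  rw [e2, hst, div_mul_cancel₀ _ hp, e1]
  have hAA : 0 ≤ AA := prod_nonneg fun _ _ => d.K.a0 _
  have hFA : 0 ≤ FA := prod_nonneg fun _ _ => d.K.a0 _
  have hc := d.K.c0 y
  have h3 : AA * (d.c y * WW) * (FA * Q) = (AA * d.c y * FA * Q) * WW := by ring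
  have h4 : d.c y * W0 * (AA * FA * Q) = (AA * d.c y * FA * Q) * W0 := by ring
  rw [h3, h4]
  exact mul_le_mul_of_nonneg_left hWW (by positivity)

theorem G0 (hW : ∀ v, v ∉ d.F → v ∉ d.N d.b0 → ∀ x y, d.W x y ≤ 1) :
    0 < tt d.α d.c d.W d.N ∧
    ((∑ b, ((d.N b).card : ℝ)) + Fintype.card A - d.F.card - (d.N d.b0).card) *
      Real.log (pp d.α d.c d.W) + ∑ b ∈ univ.erase d.b0, d.EE (fun _ x => Real.log (d.fb b x))
      - ∑ i ∈ d.I0, d.EE (fun _ x => Real.log (d.h i x)) ≤ Real.log (tt d.α d.c d.W d.N) := by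
  classical
  obtain ⟨v0, hv0⟩ := d.hub
  have : Nonempty ↥(univ \ d.F) := ⟨⟨v0, Finset.mem_sdiff.2 ⟨mem_univ v0,
    fun h => d.off v0 h hv0⟩⟩⟩
  have hp := d.K.p0
  have hQp : ∀ y x, d.Pi y x ≠ 0 → ∀ b, 0 < pp d.α d.c d.W ^ (d.N b).card * d.fb b x :=
    fun y x h b => mul_pos (pow_pos hp _) (d.fb_pos h b)
  have hHp : ∀ y x, d.Pi y x ≠ 0 → 0 < ∏ i ∈ d.I0, d.h i x := fun y x h =>
    Finset.prod_pos fun i hi => d.supp_h h hi
  have hup : ∀ y x, d.Pi y x ≠ 0 → 0 < d.uu y x := by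
    intro y x h
    refine div_pos (mul_pos (mul_pos (pow_pos (d.K.rpos (d.supp_m h)) _) (pow_pos hp _))
      (Finset.prod_pos fun b _ => hQp y x h b)) (hHp y x h)
  have hJ := d.EE_jensen hup
  have hle : d.EE d.uu ≤ tt d.α d.c d.W d.N := by
    rw [← d.sum_term]
    unfold EE
    exact Finset.sum_le_sum fun y _ => Finset.sum_le_sum fun x _ => d.uu_le hW y x
  refine ⟨hJ.1.trans_le hle, ?_⟩
  refine le_trans ?_ (hJ.2.trans (Real.log_le_log hJ.1 hle))
  set n := Fintype.card ↥(univ \ d.F) with hn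
  have hconst : ∀ r : ℝ, d.EE (fun _ _ => r) = r := by
    intro r
    rw [d.EE_y (fun _ => r), ← Finset.sum_mul, d.K.mm1, one_mul]
  have hlog : d.EE (fun y x => Real.log (d.uu y x))
      = ((n - 1 : ℕ) : ℝ) * d.EE (fun y _ => Real.log (rd d.α d.c d.W y)) +
        d.EE (fun _ _ => (n : ℝ) * Real.log (pp d.α d.c d.W)) +
        (∑ b ∈ univ.erase d.b0, d.EE (fun _ x => ((d.N b).card : ℝ) *
          Real.log (pp d.α d.c d.W) + Real.log (d.fb b x))) -
        ∑ i ∈ d.I0, d.EE (fun _ x => Real.log (d.h i x)) := by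
    rw [← EE_sum, ← EE_sum, ← EE_mul, ← EE_add, ← EE_add, ← EE_sub]
    refine d.EE_congr fun y x h => ?_
    have h1 := pow_pos (d.K.rpos (d.supp_m h)) (n - 1)
    have h2 : 0 < pp d.α d.c d.W ^ n := pow_pos hp _
    have h3 : ∏ b ∈ univ.erase d.b0, (pp d.α d.c d.W ^ (d.N b).card * d.fb b x) ≠ 0 :=
      (Finset.prod_pos fun b _ => hQp y x h b).ne'
    unfold uu
    rw [Real.log_div (mul_ne_zero (mul_pos h1 h2).ne' h3) (hHp y x h).ne',
      Real.log_mul (mul_pos h1 h2).ne' h3, Real.log_mul h1.ne' h2.ne', Real.log_pow,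
      Real.log_pow, Real.log_prod fun b _ => (hQp y x h b).ne',
      Real.log_prod fun i hi => (d.supp_h h hi).ne']
    congr 2
    refine Finset.sum_congr rfl fun b _ => ?_
    rw [Real.log_mul (pow_pos hp _).ne' (d.fb_pos h b).ne', Real.log_pow]
  have hsum : ∑ b ∈ univ.erase d.b0, d.EE (fun _ x => ((d.N b).card : ℝ) *
      Real.log (pp d.α d.c d.W) + Real.log (d.fb b x))
      = (∑ b, ((d.N b).card : ℝ) - (d.N d.b0).card) * Real.log (pp d.α d.c d.W) +
        ∑ b ∈ univ.erase d.b0, d.EE (fun _ x => Real.log (d.fb b x)) := by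
    rw [Finset.sum_congr rfl fun b _ => d.EE_add _ _, Finset.sum_add_distrib]
    congr 1
    rw [Finset.sum_congr rfl fun b _ => hconst _, ← Finset.sum_mul,
      ← Finset.add_sum_erase univ (fun b => ((d.N b).card : ℝ)) (mem_univ d.b0)]
    ring
  have heta : 0 ≤ ((n - 1 : ℕ) : ℝ) * d.EE (fun y _ => Real.log (rd d.α d.c d.W y)) := by
    rw [d.EE_y (fun y => Real.log (rd d.α d.c d.W y))]
    exact mul_nonneg (Nat.cast_nonneg _) d.K.eta_nonneg
  have hnc : (n : ℝ) = Fintype.card A - d.F.card := by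
    rw [hn, Fintype.card_coe, Finset.card_sdiff_of_subset (Finset.subset_univ _), card_univ,
      Nat.cast_sub (Finset.card_le_univ _)]
  rw [hlog, hsum, hconst, hnc]
  linarith

/-- the cost of a class -/
theorem cost {k : ℕ} (hmono : ∀ u, u ≤ k → gg d.α d.c d.W u ≤ gg d.α d.c d.W k) {i : ℕ}
    (hi : i ∈ d.I0) (hc : (d.U i ∪ d.C i).card ≤ k + 1) :
    d.EE (fun _ x => Real.log (d.h i x)) ≤ (d.C i).card * gg d.α d.c d.W k := by
  have h1 : Dep (d.U i ∪ d.C i) (fun x => Real.log (d.h i x)) := by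
    intro x x' hx
    simp only [d.dep_h i x x' hx]
  rw [d.star2 hi h1]
  exact Es_cost d.K hmono (d.U i) (d.C i) (d.UC_disj i) hc

/-- the gain of a vertex -/
theorem gain (k1 : K1Stmt) (k2 : K2Stmt) (k : ℕ) (b : B) :
    ((((d.N b).card + 1 - (k + 1) : ℕ)) : ℝ) * gg d.α d.c d.W k
      ≤ d.EE (fun _ x => Real.log (d.fb b x)) := by
  have h1 : Dep (d.N b) (fun x => Real.log (d.fb b x)) := by
    intro x x' hx
    simp only [d.dep_fb b x x' hx]
  rw [d.star b h1]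
  let e : Dt A B X Y :=
    { α := d.α, c := d.c, W := d.W, N := d.N, b0 := d.b0, F := ∅, D := k + 1, k := k
      κ := fun b j => Sum.inr (b, j)
      θ := fun _ => 1
      K := d.K
      bl := ⟨d.hub, fun a ha => absurd ha (Finset.notMem_empty a),
        fun a ha => absurd ha (Finset.notMem_empty a),
        fun a ha => absurd ha (Finset.notMem_empty a),
        fun a ha => absurd ha (Finset.notMem_empty a)⟩
      kD := rfl
      θpos := fun _ => zero_lt_one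
      θle := fun _ => le_rfl
      inj := fun b j j' h => (Prod.ext_iff.1 (Sum.inr_injective h)).2
      left := fun b j v h => absurd h (by simp)
      right := fun b j w h => by rw [← Sum.inr_injective h]
      cover := fun a ha => absurd ha (Finset.notMem_empty a) }
  have h2 := e.per_b (fun a ha => absurd ha (Finset.notMem_empty a)) k1 k2 b
  have h3 : e.EE (fun _ x => Real.log (e.fb b x))
      = Es d.α d.c d.W (fun x => Real.log (d.fb b x)) := by
    unfold Dt.EE Dt.Pi Es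
    refine Finset.sum_congr rfl fun y _ => ?_
    by_cases hy : mm d.α d.c d.W y = 0
    · have : mm e.α e.c e.W y = 0 := hy
      simp [hy, this]
    · have hy' : mm e.α e.c e.W y ≠ 0 := hy
      have hm := marg (e.mu1 hy') (κ := fun v : A => (Sum.inl v : A ⊕ (B × Fin e.k)))
        (fun v v' h => Sum.inl_injective h) (fun x : A → X => Real.log (d.fb b x))
      have h4 : ∀ x : A ⊕ (B × Fin e.k) → X, mm e.α e.c e.W y * (wt (e.mu y) x *
          ∏ a ∈ e.F, e.ha a y x) * Real.log (e.fb b x)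
          = mm d.α d.c d.W y * (wt (e.mu y) x * Real.log (d.fb b fun v => x (Sum.inl v))) := by
        intro x
        have : ∏ a ∈ e.F, e.ha a y x = 1 := Finset.prod_empty
        rw [this, mul_one, mul_assoc]
        rfl
      rw [Finset.sum_congr rfl fun x _ => h4 x, ← Finset.mul_sum, hm]
      rfl
  rw [h3] at h2
  refine le_trans (le_of_eq ?_) h2
  have h5 : (d.N b \ Blk d.N ∅) = d.N b := by
    have : Blk d.N ∅ = ∅ := by
      unfold Blk
      simp
    rw [this, Finset.sdiff_empty]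
  have h6 : ∀ a ∈ e.F, a ∉ e.N b := fun a ha => absurd ha (Finset.notMem_empty a)
  rw [if_pos h6]
  have h7 : (e.N b \ Blk e.N e.F) = d.N b := h5
  rw [h7]
  have h8 : ∀ g : A → ℝ, ∑ a ∈ e.F, g a = 0 := fun g => Finset.sum_empty
  rw [h8, zero_add]

/-- the main inequality of the second law -/
theorem main (k1 : K1Stmt) (k2 : K2Stmt) {M : ℕ} (hM : 1 ≤ M)
    (hW : ∀ v, v ∉ d.F → v ∉ d.N d.b0 → ∀ x y, d.W x y ≤ 1)
    (hmono : ∀ u, u ≤ M - 1 → gg d.α d.c d.W u ≤ gg d.α d.c d.W (M - 1))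
    (hs : ∀ i ∈ d.I0, (d.U i ∪ d.C i).card ≤ M) :
    0 < tt d.α d.c d.W d.N ∧
    ((∑ b, ((d.N b).card : ℝ)) + Fintype.card A - d.F.card - (d.N d.b0).card) *
      Real.log (pp d.α d.c d.W) +
      (((∑ b ∈ univ.erase d.b0, ((d.N b).card + 1 - M) : ℕ) : ℝ) - d.F.card) *
        gg d.α d.c d.W (M - 1) ≤ Real.log (tt d.α d.c d.W d.N) := by
  obtain ⟨h0, h1⟩ := d.G0 hW
  refine ⟨h0, le_trans ?_ h1⟩
  have hM' : M - 1 + 1 = M := by omega
  have h2 : ((∑ b ∈ univ.erase d.b0, ((d.N b).card + 1 - M) : ℕ) : ℝ) * gg d.α d.c d.W (M - 1)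
      ≤ ∑ b ∈ univ.erase d.b0, d.EE (fun _ x => Real.log (d.fb b x)) := by
    rw [Nat.cast_sum, Finset.sum_mul]
    refine Finset.sum_le_sum fun b _ => ?_
    have := d.gain k1 k2 (M - 1) b
    rwa [hM'] at this
  have h3 : ∑ i ∈ d.I0, d.EE (fun _ x => Real.log (d.h i x))
      ≤ (d.F.card : ℝ) * gg d.α d.c d.W (M - 1) := by
    have h4 : d.F.card = ∑ i ∈ d.I0, (d.C i).card := by
      unfold I0 C
      exact Finset.card_eq_sum_card_image d.cl d.F
    rw [h4, Nat.cast_sum, Finset.sum_mul]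
    refine Finset.sum_le_sum fun i hi => d.cost hmono hi ?_
    rw [hM']
    exact hs i hi
  linarith

end Ds

section

variable {A B : Type} [Fintype A] [DecidableEq A] [Fintype B] [DecidableEq B]

/-- a class of `F` and the neighbourhoods meeting it -/
def Sur (N : B → Finset A) (F : Finset A) (cl : A → ℕ) (i : ℕ) : Finset A :=
  ((univ.filter fun b => ∃ a ∈ F.filter fun a => cl a = i, a ∈ N b).biUnion N) ∪
    F.filter fun a => cl a = i

end

/-- the second main inequality -/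
def CoreStmt5 : Prop :=
  ∀ (A B X Y : Type) [Fintype A] [DecidableEq A] [Fintype B] [DecidableEq B]
    [Fintype X] [Fintype Y] (α : X → ℝ) (c : Y → ℝ) (W : X → Y → ℝ) (N : B → Finset A) (b0 : B)
    (F : Finset A) (cl : A → ℕ) (M : ℕ), (∀ x, 0 ≤ α x) → ∑ x, α x = 1 → (∀ y, 0 ≤ c y) →
    ∑ y, c y = 1 → (∀ x y, 0 ≤ W x y) → 0 < pp α c W → 1 ≤ M → (N b0).Nonempty →
    (∀ a ∈ F, a ∉ N b0) →
    (∀ b, ∀ a ∈ F, ∀ a' ∈ F, a ∈ N b → a' ∈ N b → cl a = cl a') →
    (∀ a ∈ F, (Sur N F cl (cl a)).card ≤ M) →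
    (∀ v, v ∉ F → v ∉ N b0 → ∀ x y, W x y ≤ 1) →
    0 < tt α c W N ∧
    ((∑ b, ((N b).card : ℝ)) + Fintype.card A - F.card - (N b0).card) * Real.log (pp α c W) +
      (((∑ b ∈ univ.erase b0, ((N b).card + 1 - M) : ℕ) : ℝ) - F.card) * gg α c W (M - 1)
      ≤ Real.log (tt α c W N)

theorem core_of5 (k1 : K1Stmt) (k2 : K2Stmt)
    (mono : ∀ (X Y : Type) [Fintype X] [Fintype Y] (α : X → ℝ) (c : Y → ℝ) (W : X → Y → ℝ)
      (u k : ℕ), Ker α c W → u ≤ k → gg α c W u ≤ gg α c W k) : CoreStmt5 := by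
  intro A B X Y _ _ _ _ _ _ α c W N b0 F cl M a0 a1 c0 c1 W0 p0 hM hub off cls size hW
  let d : Ds A B X Y :=
    { α := α, c := c, W := W, N := N, b0 := b0, F := F, cl := cl
      K := ⟨a0, a1, c0, c1, W0, p0⟩
      hub := hub
      off := off
      cls := cls }
  refine d.main k1 k2 hM hW (fun u hu => mono X Y α c W u (M - 1) d.K hu) fun i hi => ?_
  obtain ⟨a, ha, rfl⟩ := Finset.mem_image.1 hi
  refine le_trans (Finset.card_le_card fun v hv => ?_) (size a ha)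
  unfold Sur
  rw [Finset.mem_union] at hv ⊢
  rcases hv with hv | hv
  · exact Or.inl (Finset.mem_sdiff.1 hv).1
  · exact Or.inr hv

end Vale.Agent.P050.R2.H901
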