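import Vale.Agent.P050.R2.H901.Dat

/-!
Vertices not adjacent to a centre.
-/

namespace Vale.Agent.P050.R2.H901

open Finset

namespace Dat

variable {A B X Y : Type} [Fintype A] [DecidableEq A] [Fintype B] [DecidableEq B]
    [Fintype X] [Fintype Y] (d : Dat A B X Y)

theorem EE_congr {G G' : Y → (A ⊕ (B × Fin d.k) → X) → ℝ}
    (h : ∀ y x, d.Pi y x ≠ 0 → G y x = G' y x) : d.EE G = d.EE G' := by
  unfold EE
  refine Finset.sum_congr rfl fun y _ => Finset.sum_congr rfl fun x _ => ?_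
  by_cases hp : d.Pi y x = 0
  · rw [hp, zero_mul, zero_mul]
  · rw [h y x hp]

theorem EE_mono {G G' : Y → (A ⊕ (B × Fin d.k) → X) → ℝ}
    (h : ∀ y x, d.Pi y x ≠ 0 → G y x ≤ G' y x) : d.EE G ≤ d.EE G' := by
  unfold EE
  refine Finset.sum_le_sum fun y _ => Finset.sum_le_sum fun x _ => ?_
  by_cases hp : d.Pi y x = 0
  · rw [hp, zero_mul, zero_mul]
  · exact mul_le_mul_of_nonneg_left (h y x hp) (d.Pi0 y x)

theorem EE_add (G G' : Y → (A ⊕ (B × Fin d.k) → X) → ℝ) :
    d.EE (fun y x => G y x + G' y x) = d.EE G + d.EE G' := by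
  unfold EE
  simp_rw [mul_add, Finset.sum_add_distrib]

theorem EE_sub (G G' : Y → (A ⊕ (B × Fin d.k) → X) → ℝ) :
    d.EE (fun y x => G y x - G' y x) = d.EE G - d.EE G' := by
  unfold EE
  simp_rw [mul_sub, Finset.sum_sub_distrib]

theorem EE_mul (r : ℝ) (G : Y → (A ⊕ (B × Fin d.k) → X) → ℝ) :
    d.EE (fun y x => r * G y x) = r * d.EE G := by
  unfold EE
  rw [Finset.mul_sum]
  refine Finset.sum_congr rfl fun y _ => ?_
  rw [Finset.mul_sum]
  exact Finset.sum_congr rfl fun x _ => by ring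

theorem EE_sum {ι : Type} (S : Finset ι) (G : ι → Y → (A ⊕ (B × Fin d.k) → X) → ℝ) :
    d.EE (fun y x => ∑ i ∈ S, G i y x) = ∑ i ∈ S, d.EE (G i) := by
  classical
  induction S using Finset.induction_on with
  | empty => simp [EE]
  | insert a s h ih =>
    simp_rw [Finset.sum_insert h]
    rw [EE_add, ih]

/-- normalised codegree of the neighbourhood of `b` -/
noncomputable def fb (b : B) (x : A ⊕ (B × Fin d.k) → X) : ℝ :=
  FF d.α d.c d.W (fun i : ↥(d.N b) => x (Sum.inl i.1))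

/-- mean of the logarithm of a tilt -/
noncomputable def L (a : A) : ℝ := d.EE fun y x => Real.log (d.ha a y x)

/-- mean information of an arm -/
noncomputable def P (a : A) (b : B) : ℝ :=
  d.EE fun _ x => Real.log (ph d.α d.c d.W (fun j => x (d.κ b j)) (x (Sum.inl a)))

section

variable (hN : ∀ a y, mm d.α d.c d.W y ≠ 0 → 0 < d.Nn a y)
include hN

theorem B1 {b : B} (hb : ∀ a ∈ d.F, a ∉ d.N b) (hne : (d.N b).Nonempty) {S : Finset A}
    (hS : S ⊆ d.F) (hT : ∀ a ∈ d.F, a ∉ S → Disjoint ((d.N b).image Sum.inl) (d.C a))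
    {ψ : (↥(d.N b) → X) → ℝ} (hψ : ∀ ξ, 0 ≤ ψ ξ)
    (hψ1 : ∑ ξ : ↥(d.N b) → X, (∏ i, d.α (ξ i)) * ψ ξ ≤ 1)
    (hψp : ∀ y x, d.Pi y x ≠ 0 → 0 < ψ (fun i => x (Sum.inl i.1))) :
    d.EE (fun _ x => Real.log (ψ fun i => x (Sum.inl i.1))) - ∑ a ∈ S, d.L a
      ≤ d.EE (fun _ x => Real.log (d.fb b x)) := by
  have : Nonempty ↥(d.N b) := ⟨⟨hne.choose, hne.choose_spec⟩⟩
  have hFp : ∀ y x, d.Pi y x ≠ 0 → 0 < d.fb b x := fun y x h =>
    d.K.FFpos (d.supp_m h) fun i => d.supp_ee h fun hi => hb _ hi i.2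
  set n := Fintype.card ↥(d.N b) with hn
  have hdep : Dep ((d.N b).image Sum.inl) (fun x : A ⊕ (B × Fin d.k) → X =>
      ψ (fun i => x (Sum.inl i.1)) / d.fb b x) := by
    intro x x' hx
    have : (fun i : ↥(d.N b) => x (Sum.inl i.1)) = fun i => x' (Sum.inl i.1) := by
      funext i
      exact hx _ (mem_image_of_mem _ i.2)
    simp only [fb, this]
  have hpos : ∀ y x, d.Pi y x ≠ 0 → 0 < rd d.α d.c d.W y ^ (n - 1) *
      ((ψ (fun i => x (Sum.inl i.1)) / d.fb b x) / ∏ a ∈ S, d.ha a y x) := fun y x h =>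
    mul_pos (pow_pos (d.K.rpos (d.supp_m h)) _) (div_pos (div_pos (hψp y x h) (hFp y x h))
      (Finset.prod_pos fun a ha => d.supp_ha h (hS ha)))
  have h1 : d.EE (fun y x => rd d.α d.c d.W y ^ (n - 1) *
      ((ψ (fun i => x (Sum.inl i.1)) / d.fb b x) / ∏ a ∈ S, d.ha a y x)) ≤ 1 := by
    refine le_trans ?_ hψ1
    refine le_trans ?_ (d.K.sum_star_div hψ)
    unfold EE Pi
    refine Finset.sum_le_sum fun y _ => ?_
    by_cases hy : mm d.α d.c d.W y = 0
    · simp [hy]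
    · have e : ∀ x, mm d.α d.c d.W y * (wt (d.mu y) x * ∏ a ∈ d.F, d.ha a y x) *
          (rd d.α d.c d.W y ^ (n - 1) *
          ((ψ (fun i => x (Sum.inl i.1)) / d.fb b x) / ∏ a ∈ S, d.ha a y x))
          = mm d.α d.c d.W y * (rd d.α d.c d.W y ^ (n - 1) * (wt (d.mu y) x *
          ((∏ a ∈ d.F, d.ha a y x) *
          ((ψ (fun i => x (Sum.inl i.1)) / d.fb b x) / ∏ a ∈ S, d.ha a y x)))) := fun x => by ring
      simp_rw [e]
      rw [← Finset.mul_sum, ← Finset.mul_sum]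
      refine mul_le_mul_of_nonneg_left (mul_le_mul_of_nonneg_left ?_
        (pow_nonneg (d.K.rd0 y) _)) (d.K.mm0 y)
      refine (d.int_div hN hy hS (fun x => div_nonneg (hψ _) (d.K.FF0 _)) hdep hT).trans
        (le_of_eq ?_)
      have hm := marg (d.mu1 hy) (κ := fun i : ↥(d.N b) => (Sum.inl i.1 : A ⊕ (B × Fin d.k)))
        (fun i j hij => Subtype.ext (Sum.inl_injective hij))
        (fun ξ => ψ ξ / FF d.α d.c d.W ξ)
      refine hm.trans ?_
      refine Finset.sum_congr rfl fun ξ _ => ?_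
      congr 1
      refine Finset.prod_congr rfl fun i _ => ?_
      rw [d.mu_not_mem fun hi => hb _ hi i.2]
  have h2 := d.EE_jensen' hN hpos h1
  have h3 : d.EE (fun y x => Real.log (rd d.α d.c d.W y ^ (n - 1) *
      ((ψ (fun i => x (Sum.inl i.1)) / d.fb b x) / ∏ a ∈ S, d.ha a y x)))
      = ((n - 1 : ℕ) : ℝ) * d.EE (fun y _ => Real.log (rd d.α d.c d.W y)) +
        (d.EE (fun _ x => Real.log (ψ fun i => x (Sum.inl i.1))) -
        d.EE (fun _ x => Real.log (d.fb b x)) - ∑ a ∈ S, d.L a) := by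
    unfold L
    rw [← EE_sum, ← EE_mul, ← EE_sub, ← EE_sub, ← EE_add]
    refine d.EE_congr fun y x h => ?_
    rw [Real.log_mul (pow_pos (d.K.rpos (d.supp_m h)) _).ne'
      (div_pos (div_pos (hψp y x h) (hFp y x h))
      (Finset.prod_pos fun a ha => d.supp_ha h (hS ha))).ne', Real.log_pow,
      Real.log_div (div_pos (hψp y x h) (hFp y x h)).ne'
      (Finset.prod_pos fun a ha => d.supp_ha h (hS ha)).ne',
      Real.log_div (hψp y x h).ne' (hFp y x h).ne',
      Real.log_prod fun a ha => (d.supp_ha h (hS ha)).ne']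
  have h4 := d.EE_y hN (fun y => Real.log (rd d.α d.c d.W y))
  have h5 := mul_nonneg (Nat.cast_nonneg (α := ℝ) (n - 1)) d.K.eta_nonneg
  rw [h3, h4] at h2
  linarith

/-- a free vertex of large degree -/
theorem B1free {b : B} (hb : ∀ a ∈ d.F, a ∉ d.N b)
    (hT : ∀ a ∈ d.F, Disjoint ((d.N b).image Sum.inl) (d.C a)) (hD : d.D ≤ (d.N b).card) :
    gg d.α d.c d.W d.k ≤ d.EE (fun _ x => Real.log (d.fb b x)) := by
  have hc : d.k + 1 ≤ Fintype.card ↥(d.N b) := by
    rw [Fintype.card_coe]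
    have := d.kD
    omega
  have hne : (d.N b).Nonempty := by
    rw [← Finset.card_pos]
    have := d.kD
    omega
  obtain ⟨e⟩ : Nonempty (Fin (d.k + 1) ↪ ↥(d.N b)) := by
    refine Function.Embedding.nonempty_of_card_le ?_
    rw [Fintype.card_fin]
    exact hc
  have he1 : Function.Injective fun j : Fin d.k => e j.castSucc := fun i j hij =>
    Fin.castSucc_injective _ (e.injective hij)
  have he2 : ∀ j : Fin d.k, e j.castSucc ≠ e (Fin.last d.k) := fun j hj =>
    (Fin.castSucc_lt_last j).ne (e.injective hj)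
  have key := d.B1 hN hb hne (S := ∅) (Finset.empty_subset _) (fun a ha _ => hT a ha)
    (ψ := fun ξ => ph d.α d.c d.W (fun j => ξ (e j.castSucc)) (ξ (e (Fin.last d.k))))
    (fun ξ => d.K.ph0 _ _) ?_ ?_
  · rw [Finset.sum_empty, sub_zero] at key
    refine le_trans (le_of_eq ?_) key
    unfold EE Pi gg
    have h1 : ∀ y, ∑ x, mm d.α d.c d.W y * (wt (d.mu y) x * ∏ a ∈ d.F, d.ha a y x) *
        Real.log (ph d.α d.c d.W (fun j => x (Sum.inl (e j.castSucc).1))
          (x (Sum.inl (e (Fin.last d.k)).1)))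
        = ∑ ξ, ∑ ρ : Fin d.k → X, (mm d.α d.c d.W y * (∏ j, ee d.α d.W y (ρ j)) *
          ee d.α d.W y ξ) * Real.log (ph d.α d.c d.W ρ ξ) := by
      intro y
      by_cases hy : mm d.α d.c d.W y = 0
      · simp [hy]
      · have e0 : ∀ x, mm d.α d.c d.W y * (wt (d.mu y) x * ∏ a ∈ d.F, d.ha a y x) *
            Real.log (ph d.α d.c d.W (fun j => x (Sum.inl (e j.castSucc).1))
            (x (Sum.inl (e (Fin.last d.k)).1)))
            = mm d.α d.c d.W y * (wt (d.mu y) x * ((∏ a ∈ d.F, d.ha a y x) *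
            Real.log (ph d.α d.c d.W (fun j => x (Sum.inl (e j.castSucc).1))
            (x (Sum.inl (e (Fin.last d.k)).1))))) := fun x => by ring
        simp_rw [e0]
        rw [← Finset.mul_sum, d.int_all hN hy (T := (d.N b).image Sum.inl) ?_ hT]
        · have hm := marg2 (d.mu1 hy)
            (κ := fun j : Fin d.k => (Sum.inl (e j.castSucc).1 : A ⊕ (B × Fin d.k)))
            (v0 := Sum.inl (e (Fin.last d.k)).1)
            (fun i j hij => he1 (Subtype.ext (Sum.inl_injective hij)))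
            (fun j hj => he2 j (Subtype.ext (Sum.inl_injective hj)))
            (fun ρ ξ => Real.log (ph d.α d.c d.W ρ ξ))
          rw [hm, Finset.mul_sum]
          refine Finset.sum_congr rfl fun ξ _ => ?_
          rw [Finset.mul_sum, Finset.mul_sum]
          refine Finset.sum_congr rfl fun ρ _ => ?_
          have h3 : ∀ i : ↥(d.N b), d.mu y (Sum.inl i.1) = ee d.α d.W y := fun i =>
            d.mu_not_mem (fun hi => hb _ hi i.2) y
          simp_rw [h3]
          ring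
        · intro x x' hx
          have h4 : ∀ i : ↥(d.N b), x (Sum.inl i.1) = x' (Sum.inl i.1) := fun i =>
            hx _ (mem_image_of_mem _ i.2)
          simp only [h4]
    symm
    rw [Finset.sum_congr rfl fun y _ => h1 y, Finset.sum_comm]
    conv_rhs => rw [Finset.sum_comm]
    refine Finset.sum_congr rfl fun ξ _ => ?_
    rw [Finset.sum_comm]
    refine Finset.sum_congr rfl fun ρ _ => ?_
    unfold Pk1
    rw [Finset.sum_mul]
  · have hm := marg2 (V := ↥(d.N b)) (μ := fun _ => d.α) (fun _ => d.K.a1) he1 he2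
      (fun ρ ξ => ph d.α d.c d.W ρ ξ)
    unfold wt at hm
    rw [hm]
    have h1 : ∑ ξ, d.α ξ * ∑ ρ : Fin d.k → X, (∏ j, d.α (ρ j)) * ph d.α d.c d.W ρ ξ
        = ∑ ρ : Fin d.k → X, (∏ j, d.α (ρ j)) * ∑ ξ, d.α ξ * ph d.α d.c d.W ρ ξ := by
      simp_rw [Finset.mul_sum]
      rw [Finset.sum_comm]
      refine Finset.sum_congr rfl fun ρ _ => Finset.sum_congr rfl fun ξ _ => by ring
    rw [h1]
    have h2 : ∑ ρ : Fin d.k → X, ∏ j, d.α (ρ j) = 1 := by
      have := sum_wt_one (V := Fin d.k) (μ := fun _ => d.α) (fun _ => d.K.a1)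
      exact this
    rw [← h2]
    refine Finset.sum_le_sum fun ρ _ => ?_
    have h4 : 0 ≤ ∏ j, d.α (ρ j) := prod_nonneg fun j _ => d.K.a0 (ρ j)
    have h3 := mul_le_mul_of_nonneg_left (d.K.sum_ph_le ρ) h4
    rwa [mul_one] at h3
  · intro y x h
    have h3 : ∀ i : ↥(d.N b), ee d.α d.W y (x (Sum.inl i.1)) ≠ 0 := fun i =>
      d.supp_ee h fun hi => hb _ hi i.2
    exact d.K.ph_ne (d.K.Pk1pos (d.supp_m h) (fun j => h3 _) (h3 _)).ne'

end

end Dat

end Vale.Agent.P050.R2.H901
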