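import Vale.Agent.P050.R2.H901.Dat2

/-!
Vertices not adjacent to a centre.
-/

namespace Vale.Agent.P050.R2.H901

open Finset

namespace Dt

variable {A B X Y : Type} [Fintype A] [DecidableEq A] [Fintype B] [DecidableEq B]
    [Fintype X] [Fintype Y] (d : Dt A B X Y)

theorem EE_congr {G G' : Y → (A ⊕ (B × Fin d.k) → X) → ℝ}
    (h : ∀ y x, d.Pi y x ≠ 0 → G y x = G' y x) : d.EE G = d.EE G' := by
  unfold EE
  refine Finset.sum_congr rfl fun y _ => Finset.sum_congr rfl fun x _ => ?_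
  by_cases hp : d.Pi y x = 0
  · rw [hp, zero_mul, zero_mul]
  · rw [h y x hp]

theorem EE_mono {G G' : Y → (A ⊕ (B × Fin d.k) → X) → ℝ}
    (h : ∀ y x, d.Pi y x ≠ 0 → G y x ≤ G' y x) : d.EE G ≤ d.EE G' := by
  unfold EE
  refine Finset.sum_le_sum fun y _ => Finset.sum_le_sum fun x _ => ?_
  by_cases hp : d.Pi y x = 0
  · rw [hp, zero_mul, zero_mul]
  · exact mul_le_mul_of_nonneg_left (h y x hp) (d.Pi0 y x)

theorem EE_add (G G' : Y → (A ⊕ (B × Fin d.k) → X) → ℝ) :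
    d.EE (fun y x => G y x + G' y x) = d.EE G + d.EE G' := by
  unfold EE
  simp_rw [mul_add, Finset.sum_add_distrib]

theorem EE_sub (G G' : Y → (A ⊕ (B × Fin d.k) → X) → ℝ) :
    d.EE (fun y x => G y x - G' y x) = d.EE G - d.EE G' := by
  unfold EE
  simp_rw [mul_sub, Finset.sum_sub_distrib]

theorem EE_mul (r : ℝ) (G : Y → (A ⊕ (B × Fin d.k) → X) → ℝ) :
    d.EE (fun y x => r * G y x) = r * d.EE G := by
  unfold EE
  rw [Finset.mul_sum]
  refine Finset.sum_congr rfl fun y _ => ?_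
  rw [Finset.mul_sum]
  exact Finset.sum_congr rfl fun x _ => by ring

theorem EE_sum {ι : Type} (S : Finset ι) (G : ι → Y → (A ⊕ (B × Fin d.k) → X) → ℝ) :
    d.EE (fun y x => ∑ i ∈ S, G i y x) = ∑ i ∈ S, d.EE (G i) := by
  classical
  induction S using Finset.induction_on with
  | empty => simp [EE]
  | insert a s h ih =>
    simp_rw [Finset.sum_insert h]
    rw [EE_add, ih]

/-- normalised codegree of the neighbourhood of `b` -/
noncomputable def fb (b : B) (x : A ⊕ (B × Fin d.k) → X) : ℝ :=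
  FF d.α d.c d.W (fun i : ↥(d.N b) => x (Sum.inl i.1))

/-- mean of the logarithm of a tilt -/
noncomputable def L (a : A) : ℝ := d.EE fun y x => Real.log (d.ha a y x)

/-- mean information of an arm -/
noncomputable def P (a : A) (b : B) : ℝ :=
  d.EE fun _ x => Real.log (ph d.α d.c d.W (fun j => x (d.κ b j)) (x (Sum.inl a)))

section

variable (hN : ∀ a ∈ d.F, ∀ y, mm d.α d.c d.W y ≠ 0 → 0 < d.Nn a y)
include hN

theorem B1 {b : B} (hb : ∀ a ∈ d.F, a ∉ d.N b) (hne : (d.N b).Nonempty) {S : Finset A}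
    (hS : S ⊆ d.F) (hT : ∀ a ∈ d.F, a ∉ S → Disjoint ((d.N b).image Sum.inl) (d.C a))
    {ψ : (↥(d.N b) → X) → ℝ} (hψ : ∀ ξ, 0 ≤ ψ ξ)
    (hψ1 : ∑ ξ : ↥(d.N b) → X, (∏ i, d.α (ξ i)) * ψ ξ ≤ 1)
    (hψp : ∀ y x, d.Pi y x ≠ 0 → 0 < ψ (fun i => x (Sum.inl i.1))) :
    d.EE (fun _ x => Real.log (ψ fun i => x (Sum.inl i.1))) - ∑ a ∈ S, d.L a
      ≤ d.EE (fun _ x => Real.log (d.fb b x)) := by
  have : Nonempty ↥(d.N b) := ⟨⟨hne.choose, hne.choose_spec⟩⟩
  have hFp : ∀ y x, d.Pi y x ≠ 0 → 0 < d.fb b x := fun y x h =>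
    d.K.FFpos (d.supp_m h) fun i => d.supp_ee h fun hi => hb _ hi i.2
  set n := Fintype.card ↥(d.N b) with hn
  have hdep : Dep ((d.N b).image Sum.inl) (fun x : A ⊕ (B × Fin d.k) → X =>
      ψ (fun i => x (Sum.inl i.1)) / d.fb b x) := by
    intro x x' hx
    have : (fun i : ↥(d.N b) => x (Sum.inl i.1)) = fun i => x' (Sum.inl i.1) := by
      funext i
      exact hx _ (mem_image_of_mem _ i.2)
    simp only [fb, this]
  have hpos : ∀ y x, d.Pi y x ≠ 0 → 0 < rd d.α d.c d.W y ^ (n - 1) *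
      ((ψ (fun i => x (Sum.inl i.1)) / d.fb b x) / ∏ a ∈ S, d.ha a y x) := fun y x h =>
    mul_pos (pow_pos (d.K.rpos (d.supp_m h)) _) (div_pos (div_pos (hψp y x h) (hFp y x h))
      (Finset.prod_pos fun a ha => d.supp_ha h (hS ha)))
  have h1 : d.EE (fun y x => rd d.α d.c d.W y ^ (n - 1) *
      ((ψ (fun i => x (Sum.inl i.1)) / d.fb b x) / ∏ a ∈ S, d.ha a y x)) ≤ 1 := by
    refine le_trans ?_ hψ1
    refine le_trans ?_ (d.K.sum_star_div hψ)
    unfold EE Pi
    refine Finset.sum_le_sum fun y _ => ?_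
    by_cases hy : mm d.α d.c d.W y = 0
    · simp [hy]
    · have e : ∀ x, mm d.α d.c d.W y * (wt (d.mu y) x * ∏ a ∈ d.F, d.ha a y x) *
          (rd d.α d.c d.W y ^ (n - 1) *
          ((ψ (fun i => x (Sum.inl i.1)) / d.fb b x) / ∏ a ∈ S, d.ha a y x))
          = mm d.α d.c d.W y * (rd d.α d.c d.W y ^ (n - 1) * (wt (d.mu y) x *
          ((∏ a ∈ d.F, d.ha a y x) *
          ((ψ (fun i => x (Sum.inl i.1)) / d.fb b x) / ∏ a ∈ S, d.ha a y x)))) := fun x => by ring
      simp_rw [e]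
      rw [← Finset.mul_sum, ← Finset.mul_sum]
      refine mul_le_mul_of_nonneg_left (mul_le_mul_of_nonneg_left ?_
        (pow_nonneg (d.K.rd0 y) _)) (d.K.mm0 y)
      refine (d.int_div hN hy hS (fun x => div_nonneg (hψ _) (d.K.FF0 _)) hdep hT).trans
        (le_of_eq ?_)
      have hm := marg (d.mu1 hy) (κ := fun i : ↥(d.N b) => (Sum.inl i.1 : A ⊕ (B × Fin d.k)))
        (fun i j hij => Subtype.ext (Sum.inl_injective hij))
        (fun ξ => ψ ξ / FF d.α d.c d.W ξ)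
      refine hm.trans ?_
      refine Finset.sum_congr rfl fun ξ _ => ?_
      congr 1
      refine Finset.prod_congr rfl fun i _ => ?_
      rw [d.mu_not_mem fun hi => hb _ hi i.2]
  have h2 := d.EE_jensen' hN hpos h1
  have h3 : d.EE (fun y x => Real.log (rd d.α d.c d.W y ^ (n - 1) *
      ((ψ (fun i => x (Sum.inl i.1)) / d.fb b x) / ∏ a ∈ S, d.ha a y x)))
      = ((n - 1 : ℕ) : ℝ) * d.EE (fun y _ => Real.log (rd d.α d.c d.W y)) +
        (d.EE (fun _ x => Real.log (ψ fun i => x (Sum.inl i.1))) -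
        d.EE (fun _ x => Real.log (d.fb b x)) - ∑ a ∈ S, d.L a) := by
    unfold L
    rw [← EE_sum, ← EE_mul, ← EE_sub, ← EE_sub, ← EE_add]
    refine d.EE_congr fun y x h => ?_
    rw [Real.log_mul (pow_pos (d.K.rpos (d.supp_m h)) _).ne'
      (div_pos (div_pos (hψp y x h) (hFp y x h))
      (Finset.prod_pos fun a ha => d.supp_ha h (hS ha))).ne', Real.log_pow,
      Real.log_div (div_pos (hψp y x h) (hFp y x h)).ne'
      (Finset.prod_pos fun a ha => d.supp_ha h (hS ha)).ne',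
      Real.log_div (hψp y x h).ne' (hFp y x h).ne',
      Real.log_prod fun a ha => (d.supp_ha h (hS ha)).ne']
  have h4 := d.EE_y hN (fun y => Real.log (rd d.α d.c d.W y))
  have h5 := mul_nonneg (Nat.cast_nonneg (α := ℝ) (n - 1)) d.K.eta_nonneg
  rw [h3, h4] at h2
  linarith

/-- mean information of a further free point -/
theorem EE_ph {κ' : Fin d.k → A} {v0 : A} (h1 : Function.Injective κ') (h2 : ∀ j, κ' j ≠ v0)
    {T : Finset A} (hT1 : ∀ j, κ' j ∈ T) (hT2 : v0 ∈ T) (hF : ∀ v ∈ T, v ∉ d.F)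
    (hT : ∀ a ∈ d.F, Disjoint (T.image Sum.inl) (d.C a)) :
    d.EE (fun _ x => Real.log (ph d.α d.c d.W (fun j => x (Sum.inl (κ' j)))
      (x (Sum.inl v0)))) = gg d.α d.c d.W d.k := by
  unfold EE Pi gg
  have h1 : ∀ y, ∑ x, mm d.α d.c d.W y * (wt (d.mu y) x * ∏ a ∈ d.F, d.ha a y x) *
      Real.log (ph d.α d.c d.W (fun j => x (Sum.inl (κ' j))) (x (Sum.inl v0)))
      = ∑ ξ, ∑ ρ : Fin d.k → X, (mm d.α d.c d.W y * (∏ j, ee d.α d.W y (ρ j)) *
        ee d.α d.W y ξ) * Real.log (ph d.α d.c d.W ρ ξ) := by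
    intro y
    by_cases hy : mm d.α d.c d.W y = 0
    · simp [hy]
    · have e0 : ∀ x, mm d.α d.c d.W y * (wt (d.mu y) x * ∏ a ∈ d.F, d.ha a y x) *
          Real.log (ph d.α d.c d.W (fun j => x (Sum.inl (κ' j))) (x (Sum.inl v0)))
          = mm d.α d.c d.W y * (wt (d.mu y) x * ((∏ a ∈ d.F, d.ha a y x) *
          Real.log (ph d.α d.c d.W (fun j => x (Sum.inl (κ' j)))
          (x (Sum.inl v0))))) := fun x => by ring
      simp_rw [e0]
      rw [← Finset.mul_sum, d.int_all hN hy (T := T.image Sum.inl) ?_ hT]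
      · have hm := marg2 (d.mu1 hy)
          (κ := fun j : Fin d.k => (Sum.inl (κ' j) : A ⊕ (B × Fin d.k)))
          (v0 := Sum.inl v0)
          (fun i j hij => h1 (Sum.inl_injective hij))
          (fun j hj => h2 j (Sum.inl_injective hj))
          (fun ρ ξ => Real.log (ph d.α d.c d.W ρ ξ))
        rw [hm, Finset.mul_sum]
        refine Finset.sum_congr rfl fun ξ _ => ?_
        rw [Finset.mul_sum, Finset.mul_sum]
        refine Finset.sum_congr rfl fun ρ _ => ?_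
        have h3 : ∀ i ∈ T, d.mu y (Sum.inl i) = ee d.α d.W y := fun i hi =>
          d.mu_not_mem (hF i hi) y
        have h4 : ∏ j, d.mu y (Sum.inl (κ' j)) (ρ j) = ∏ j, ee d.α d.W y (ρ j) :=
          Finset.prod_congr rfl fun j _ => by rw [h3 _ (hT1 j)]
        rw [h4, h3 _ hT2]
        ring
      · intro x x' hx
        have h4 : ∀ i ∈ T, x (Sum.inl i) = x' (Sum.inl i) := fun i hi =>
          hx _ (mem_image_of_mem _ hi)
        have h5 : (fun j => x (Sum.inl (κ' j))) = fun j => x' (Sum.inl (κ' j)) := by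
          funext j
          exact h4 _ (hT1 j)
        simp only [h5, h4 _ hT2]
  symm
  rw [Finset.sum_congr rfl fun y _ => h1 y, Finset.sum_comm]
  conv_rhs => rw [Finset.sum_comm]
  refine Finset.sum_congr rfl fun ξ _ => ?_
  rw [Finset.sum_comm]
  refine Finset.sum_congr rfl fun ρ _ => ?_
  unfold Pk1
  rw [Finset.sum_mul]

/-- gains of a vertex with many free neighbours -/
theorem B1gain {b : B} (hb : ∀ a ∈ d.F, a ∉ d.N b) {S : Finset A} (hS : S ⊆ d.F)
    (hT : ∀ a ∈ d.F, a ∉ S → Disjoint ((d.N b).image Sum.inl) (d.C a)) {T : Finset A}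
    (hTN : T ⊆ d.N b) (hT' : ∀ a ∈ d.F, Disjoint (T.image Sum.inl) (d.C a)) {t : ℕ}
    (hne : (d.N b).Nonempty) (hc : T.card = d.k + t) :
    t * gg d.α d.c d.W d.k - ∑ a ∈ S, d.L a ≤ d.EE (fun _ x => Real.log (d.fb b x)) := by
  obtain ⟨e0⟩ : Nonempty (Fin d.k ⊕ Fin t ≃ ↥T) := by
    refine ⟨Fintype.equivOfCardEq ?_⟩
    rw [Fintype.card_sum, Fintype.card_fin, Fintype.card_fin, Fintype.card_coe, hc]
  let e : Fin d.k ⊕ Fin t → ↥(d.N b) := fun i => ⟨(e0 i).1, hTN (e0 i).2⟩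
  have hinj : Function.Injective e := fun i j hij => by
    have h : (e i).1 = (e j).1 := congrArg Subtype.val hij
    exact e0.injective (Subtype.ext h)
  have hph : ∀ y x, d.Pi y x ≠ 0 → ∀ i : Fin t, 0 < ph d.α d.c d.W
      (fun j => x (Sum.inl (e (Sum.inl j)).1)) (x (Sum.inl (e (Sum.inr i)).1)) := by
    intro y x h i
    have h3 : ∀ i : ↥(d.N b), ee d.α d.W y (x (Sum.inl i.1)) ≠ 0 := fun i =>
      d.supp_ee h fun hi => hb _ hi i.2
    exact d.K.ph_ne (d.K.Pk1pos (d.supp_m h) (fun j => h3 _) (h3 _)).ne'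
  have key := d.B1 hN hb hne hS hT
    (ψ := fun ξ => ∏ i : Fin t, ph d.α d.c d.W (fun j => ξ (e (Sum.inl j))) (ξ (e (Sum.inr i))))
    (fun ξ => prod_nonneg fun i _ => d.K.ph0 _ _) ?_
    (fun y x h => Finset.prod_pos fun i _ => hph y x h i)
  · refine le_trans (le_of_eq ?_) key
    congr 1
    have h1 : d.EE (fun _ x => Real.log (∏ i : Fin t, ph d.α d.c d.W
        (fun j => x (Sum.inl (e (Sum.inl j)).1)) (x (Sum.inl (e (Sum.inr i)).1))))
        = ∑ i : Fin t, d.EE (fun _ x => Real.log (ph d.α d.c d.W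
        (fun j => x (Sum.inl (e (Sum.inl j)).1)) (x (Sum.inl (e (Sum.inr i)).1)))) := by
      rw [← EE_sum]
      refine d.EE_congr fun y x h => ?_
      rw [Real.log_prod fun i _ => (hph y x h i).ne']
    rw [h1]
    have h2 : ∀ i : Fin t, d.EE (fun _ x => Real.log (ph d.α d.c d.W
        (fun j => x (Sum.inl (e (Sum.inl j)).1)) (x (Sum.inl (e (Sum.inr i)).1))))
        = gg d.α d.c d.W d.k := by
      intro i
      refine d.EE_ph hN (κ' := fun j => (e (Sum.inl j)).1) (v0 := (e (Sum.inr i)).1) (T := T)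
        (fun j j' hjj => Sum.inl_injective (hinj (Subtype.ext hjj)))
        (fun j hj => ?_) (fun j => (e0 (Sum.inl j)).2) (e0 (Sum.inr i)).2
        (fun v hv hvF => hb v hvF (hTN hv)) hT'
      exact absurd (hinj (Subtype.ext hj)) (by simp)
    rw [Finset.sum_congr rfl fun i _ => h2 i, Finset.sum_const, card_univ, Fintype.card_fin,
      nsmul_eq_mul]
  · have hm := marg (V := ↥(d.N b)) (μ := fun _ => d.α) (fun _ => d.K.a1) hinj
      (fun ρ => ∏ i : Fin t, ph d.α d.c d.W (fun j => ρ (Sum.inl j)) (ρ (Sum.inr i)))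
    unfold wt at hm
    rw [hm, ← Equiv.sum_comp (Equiv.sumArrowEquivProdArrow (Fin d.k) (Fin t) X).symm,
      Fintype.sum_prod_type]
    simp only [Fintype.prod_sum_type, Equiv.sumArrowEquivProdArrow_symm_apply_inl,
      Equiv.sumArrowEquivProdArrow_symm_apply_inr]
    have h2 : ∑ ρ : Fin d.k → X, ∏ j, d.α (ρ j) = 1 := by
      have := sum_wt_one (V := Fin d.k) (μ := fun _ => d.α) (fun _ => d.K.a1)
      exact this
    rw [← h2]
    refine Finset.sum_le_sum fun ρ _ => ?_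
    have h4 : 0 ≤ ∏ j, d.α (ρ j) := prod_nonneg fun j _ => d.K.a0 (ρ j)
    have h5 : ∑ τ : Fin t → X, ((∏ j, d.α (ρ j)) * ∏ i, d.α (τ i)) *
        ∏ i, ph d.α d.c d.W ρ (τ i)
        = (∏ j, d.α (ρ j)) * ∏ _i : Fin t, ∑ x, d.α x * ph d.α d.c d.W ρ x := by
      rw [Finset.prod_univ_sum, Fintype.piFinset_univ, Finset.mul_sum]
      refine Finset.sum_congr rfl fun τ _ => ?_
      rw [Finset.prod_mul_distrib]
      ring
    refine (le_of_eq h5).trans (mul_le_of_le_one_right h4 ?_)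
    exact Finset.prod_le_one (fun _ _ => sum_nonneg fun x _ =>
      mul_nonneg (d.K.a0 x) (d.K.ph0 _ _)) fun _ _ => d.K.sum_ph_le ρ

end

end Dt

end Vale.Agent.P050.R2.H901
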