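import Vale.Agent.P050.R2.H901.StepA2

/-!
Vertices adjacent to a centre.
-/

namespace Vale.Agent.P050.R2.H901

open Finset

namespace Dt

variable {A B X Y : Type} [Fintype A] [DecidableEq A] [Fintype B] [DecidableEq B]
    [Fintype X] [Fintype Y] (d : Dt A B X Y)

section

variable (hN : ∀ a ∈ d.F, ∀ y, mm d.α d.c d.W y ≠ 0 → 0 < d.Nn a y)
include hN

theorem B2gen {a : A} (haF : a ∈ d.F) {b : B} (hb : a ∈ d.N b)
    {Ψ : (Fin d.k → X) → X → ℝ} (h0 : ∀ ρ x, 0 ≤ Ψ ρ x)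
    (hp : ∀ ρ x, Pk1 d.α d.c d.W ρ x ≠ 0 → 0 < Ψ ρ x)
    (h1 : ∑ ρ : Fin d.k → X, ∑ x, Pk1 d.α d.c d.W ρ x * Ψ ρ x ≤ 1) :
    d.P a b - d.L a +
      d.EE (fun _ x => Real.log (Ψ (fun j => x (d.κ b j)) (x (Sum.inl a)))) ≤ 0 := by
  have hpos : ∀ y x, d.Pi y x ≠ 0 →
      0 < (ph d.α d.c d.W (fun j => x (d.κ b j)) (x (Sum.inl a)) *
        Ψ (fun j => x (d.κ b j)) (x (Sum.inl a))) / ∏ a' ∈ {a}, d.ha a' y x := by
    intro y x h
    rw [Finset.prod_singleton]
    exact div_pos (mul_pos (d.supp_ph h haF hb) (hp _ _ (d.supp_P h haF hb))) (d.supp_ha h haF)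
  have hdep : Dep (d.C a) (fun x : A ⊕ (B × Fin d.k) → X =>
      ph d.α d.c d.W (fun j => x (d.κ b j)) (x (Sum.inl a)) *
        Ψ (fun j => x (d.κ b j)) (x (Sum.inl a))) := by
    intro x x' hx
    have e1 : x (Sum.inl a) = x' (Sum.inl a) := hx _ (mem_insert_self _ _)
    have e2 : (fun j => x (d.κ b j)) = fun j => x' (d.κ b j) := by
      funext j
      refine hx _ (mem_insert_of_mem (Finset.mem_biUnion.2 ⟨b, d.mem_I.2 hb, ?_⟩))
      exact mem_image_of_mem _ (mem_univ j)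
    simp only [e1, e2]
  have hle : d.EE (fun y x => (ph d.α d.c d.W (fun j => x (d.κ b j)) (x (Sum.inl a)) *
        Ψ (fun j => x (d.κ b j)) (x (Sum.inl a))) / ∏ a' ∈ {a}, d.ha a' y x) ≤ 1 := by
    refine le_trans ?_ h1
    have h2 : ∀ y, ∑ x, d.Pi y x * ((ph d.α d.c d.W (fun j => x (d.κ b j)) (x (Sum.inl a)) *
        Ψ (fun j => x (d.κ b j)) (x (Sum.inl a))) / ∏ a' ∈ {a}, d.ha a' y x)
        ≤ ∑ ρ : Fin d.k → X, ∑ ξ, (mm d.α d.c d.W y * (∏ j, ee d.α d.W y (ρ j))) *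
          (d.α ξ * (ph d.α d.c d.W ρ ξ * Ψ ρ ξ)) := by
      intro y
      unfold Pi
      by_cases hy : mm d.α d.c d.W y = 0
      · simp [hy]
      · simp_rw [mul_assoc]
        rw [← Finset.mul_sum]
        have e3 : ∑ ρ : Fin d.k → X, ∑ ξ, mm d.α d.c d.W y * ((∏ j, ee d.α d.W y (ρ j)) *
            (d.α ξ * (ph d.α d.c d.W ρ ξ * Ψ ρ ξ))) = mm d.α d.c d.W y *
            ∑ ξ, d.α ξ * ∑ ρ : Fin d.k → X, (∏ j, ee d.α d.W y (ρ j)) *
            (ph d.α d.c d.W ρ ξ * Ψ ρ ξ) := by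
          simp_rw [Finset.mul_sum]
          rw [Finset.sum_comm]
          exact Finset.sum_congr rfl fun ξ _ => Finset.sum_congr rfl fun ρ _ => by ring
        rw [e3]
        refine mul_le_mul_of_nonneg_left ?_ (d.K.mm0 y)
        refine (d.int_div hN hy (S := {a}) (by simpa using haF)
          (fun x => mul_nonneg (d.K.ph0 _ _) (h0 _ _)) hdep (fun a' ha' hne =>
          d.disj haF ha' (fun e => hne (by simp [e])))).trans (le_of_eq ?_)
        have hm := marg2 (d.mu1 hy) (d.inj b) (d.kap_ne_center haF b)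
          (fun ρ ξ => ph d.α d.c d.W ρ ξ * Ψ ρ ξ)
        rw [hm, d.mu_mem haF]
        simp_rw [d.mu_kap]
    unfold EE
    refine (Finset.sum_le_sum fun y _ => h2 y).trans (le_of_eq ?_)
    rw [Finset.sum_comm]
    refine Finset.sum_congr rfl fun ρ _ => ?_
    rw [Finset.sum_comm]
    refine Finset.sum_congr rfl fun ξ _ => ?_
    rw [← Finset.sum_mul, ← d.K.Pk1_eq]
    unfold Pk
    ring
  have h3 := d.EE_jensen' hN hpos hle
  refine le_trans (le_of_eq ?_) h3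
  unfold P L
  rw [← EE_sub, ← EE_add]
  refine d.EE_congr fun y x h => ?_
  rw [Finset.prod_singleton, Real.log_div (mul_pos (d.supp_ph h haF hb)
    (hp _ _ (d.supp_P h haF hb))).ne' (d.supp_ha h haF).ne',
    Real.log_mul (d.supp_ph h haF hb).ne' (hp _ _ (d.supp_P h haF hb)).ne']
  ring

theorem B2 (k1 : K1Stmt) (k2 : K2Stmt) {a : A} (haF : a ∈ d.F) {b : B} (hb : a ∈ d.N b) :
    d.D * (d.P a b - d.L a) ≤ d.EE (fun _ x => Real.log (d.fb b x)) := by
  classical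
  have : Nonempty ↥(d.N b) := ⟨⟨a, hb⟩⟩
  -- the coordinates of `N b`
  have hJ' : ∀ i : ↥(d.N b), ∃ o : Option (Fin d.k), (o = none → i.1 = a) ∧
      ∀ j, o = some j → d.κ b j = Sum.inl i.1 := by
    intro i
    by_cases hi : i.1 = a
    · exact ⟨none, fun _ => hi, fun j hj => by simp at hj⟩
    · obtain ⟨j, hj⟩ := d.cover a haF b hb i.1 i.2 hi
      refine ⟨some j, fun h => by simp at h, fun j' hj' => ?_⟩
      rw [Option.some.injEq] at hj'
      subst hj'
      exact hj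
  choose J hJn hJs using hJ'
  have hJi : Function.Injective J := by
    intro i i' e
    rcases hj : J i with _ | j
    · exact Subtype.ext ((hJn i hj).trans (hJn i' (e ▸ hj)).symm)
    · exact Subtype.ext (Sum.inl_injective ((hJs i j hj).symm.trans (hJs i' j (e ▸ hj))))
  have hval : ∀ (x : A ⊕ (B × Fin d.k) → X) (i : ↥(d.N b)),
      (J i).elim (x (Sum.inl a)) (fun j => x (d.κ b j)) = x (Sum.inl i.1) := by
    intro x i
    rcases hj : J i with _ | j
    · rw [Option.elim_none, hJn i hj]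
    · rw [Option.elim_some, hJs i j hj]
  obtain ⟨Ψ1, h10, h11, h12⟩ := k1 X Y d.α d.c d.W d.k d.K
  obtain ⟨Ψ2, h20, h21, h22⟩ := k2 X Y d.α d.c d.W d.k ↥(d.N b) J hJi d.K
  have g1 := d.B2gen hN haF hb h10 (fun ρ x h => (h11 ρ x h).1) h12
  have g2 := d.B2gen hN haF hb h20 (fun ρ x h => (h21 ρ x h).2.1) h22
  have g3 := d.B2gen hN haF hb (Ψ := fun _ _ => 1) (fun _ _ => zero_le_one)
    (fun _ _ _ => zero_lt_one) (by
      simp only [mul_one]
      simp_rw [d.K.sum_Pk1]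
      rw [d.K.sum_Pk])
  have e3 : d.EE (fun (_ : Y) (_ : A ⊕ (B × Fin d.k) → X) => Real.log 1) = 0 := by
    simp [EE]
  rw [e3, add_zero] at g3
  set R := d.EE (fun _ x => Rk d.α d.c d.W (fun j => x (d.κ b j)) (x (Sum.inl a))) with hR
  set n := Fintype.card ↥(d.N b) with hn
  have e1 : -R ≤ d.EE (fun _ x => Real.log (Ψ1 (fun j => x (d.κ b j)) (x (Sum.inl a)))) := by
    have : -R = d.EE (fun _ x => (-1) *
        Rk d.α d.c d.W (fun j => x (d.κ b j)) (x (Sum.inl a))) := by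
      rw [EE_mul]
      ring
    rw [this]
    refine d.EE_mono fun y x h => ?_
    have := (h11 _ _ (d.supp_P h haF hb)).2
    linarith
  have e2 : ((n : ℝ) - 1) * R - d.EE (fun _ x => Real.log (d.fb b x))
      ≤ d.EE (fun _ x => Real.log (Ψ2 (fun j => x (d.κ b j)) (x (Sum.inl a)))) := by
    rw [hR, ← EE_mul, ← EE_sub]
    refine d.EE_mono fun y x h => ?_
    have h5 := (h21 _ _ (d.supp_P h haF hb)).2.2
    simp_rw [hval x] at h5
    exact h5
  have hn1 : (1 : ℝ) ≤ n := by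
    rw [hn]
    exact_mod_cast Fintype.card_pos
  have hnD : (n : ℝ) ≤ d.D := by
    rw [hn, Fintype.card_coe]
    exact_mod_cast d.bl.deg a haF b hb
  nlinarith [mul_le_mul_of_nonneg_left (show -(d.P a b - d.L a) ≥ -R from by linarith)
    (show (0 : ℝ) ≤ (n : ℝ) - 1 by linarith), mul_le_mul_of_nonneg_left
    (show 0 ≤ -(d.P a b - d.L a) by linarith) (show (0 : ℝ) ≤ (d.D : ℝ) - n by linarith)]

end

end Dt

end Vale.Agent.P050.R2.H901
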