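import Vale.Agent.P050.R2.H901.StepB

/-!
The normalising factors and the comparison with the homomorphism density.
-/

namespace Vale.Agent.P050.R2.H901

open Finset

namespace Dat

variable {A B X Y : Type} [Fintype A] [DecidableEq A] [Fintype B] [DecidableEq B]
    [Fintype X] [Fintype Y] (d : Dat A B X Y)

theorem hN_of (hS : SumStmt) : ∀ a y, mm d.α d.c d.W y ≠ 0 → 0 < d.Nn a y := fun a y hy =>
  (hS X Y d.α d.c d.W d.k (rr d.N a) (d.θ a) (d.θpos a) (d.θle a) d.K).1 y hy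

section

variable (hN : ∀ a y, mm d.α d.c d.W y ≠ 0 → 0 < d.Nn a y)
include hN

theorem L_eq {a : A} (haF : a ∈ d.F) :
    d.L a = d.θ a * ∑ b ∈ d.I a, d.P a b - ∑ y, mm d.α d.c d.W y * Real.log (d.Nn a y) := by
  rw [← d.EE_y hN]
  unfold L P
  rw [← EE_sum, ← EE_mul, ← EE_sub]
  refine d.EE_congr fun y x h => ?_
  have h1 : 0 < d.Nn a y := hN a y (d.supp_m h)
  have h2 : ∀ b ∈ d.I a, ph d.α d.c d.W (fun j => x (d.κ b j)) (x (Sum.inl a)) ^ d.θ a ≠ 0 :=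
    fun b hb => (Real.rpow_pos_of_pos (d.supp_ph h haF (d.mem_I.1 hb)) _).ne'
  unfold Dat.ha hh
  rw [Real.log_div (Finset.prod_ne_zero_iff.2 h2) h1.ne', Real.log_prod h2, Finset.mul_sum]
  congr 1
  refine Finset.sum_congr rfl fun b hb => ?_
  rw [Real.log_rpow (d.supp_ph h haF (d.mem_I.1 hb))]

omit hN in
theorem logN_ge (hS : SumStmt) (a : A) :
    -(rr d.N a * (1 - d.θ a) * gg d.α d.c d.W d.k)
      ≤ ∑ y, mm d.α d.c d.W y * Real.log (d.Nn a y) :=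
  (hS X Y d.α d.c d.W d.k (rr d.N a) (d.θ a) (d.θpos a) (d.θle a) d.K).2

omit hN in
theorem fb_eq (b : B) (x : A ⊕ (B × Fin d.k) → X) :
    ∑ y, d.c y * ∏ i ∈ d.N b, d.W (x (Sum.inl i)) y
      = pp d.α d.c d.W ^ (d.N b).card * d.fb b x := by
  unfold fb FF
  rw [Fintype.card_coe, mul_div_cancel₀ _ (pow_ne_zero _ d.K.p0.ne')]
  refine Finset.sum_congr rfl fun y _ => ?_
  congr 1
  exact (Finset.prod_coe_sort (d.N b) (fun i => d.W (x (Sum.inl i)) y)).symm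

/-- the integrand of the homomorphism density, with free dummies -/
noncomputable def term (y : Y) (x : A ⊕ (B × Fin d.k) → X) : ℝ :=
  (d.c y * ∏ i ∈ d.N d.b0, d.W (x (Sum.inl i)) y) * ((∏ i : A, d.α (x (Sum.inl i))) *
    ∏ b ∈ univ.erase d.b0, ∑ z, d.c z * ∏ i ∈ d.N b, d.W (x (Sum.inl i)) z) *
    ∏ w : B × Fin d.k, ee d.α d.W y (x (Sum.inr w))

omit hN in
theorem sum_term : ∑ y, ∑ x, d.term y x ≤ tt d.α d.c d.W d.N := by
  have h1 : ∀ y, ∑ x, d.term y x ≤ ∑ x : A → X, (d.c y * ∏ i ∈ d.N d.b0, d.W (x i) y) *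
      ((∏ i : A, d.α (x i)) * ∏ b ∈ univ.erase d.b0, ∑ z, d.c z * ∏ i ∈ d.N b, d.W (x i) z) := by
    intro y
    unfold term
    rw [← Equiv.sum_comp (Equiv.sumArrowEquivProdArrow A (B × Fin d.k) X).symm,
      Fintype.sum_prod_type]
    refine Finset.sum_le_sum fun x _ => ?_
    simp only [Equiv.sumArrowEquivProdArrow_symm_apply_inl,
      Equiv.sumArrowEquivProdArrow_symm_apply_inr]
    rw [← Finset.mul_sum]
    have h2 : ∑ δ : B × Fin d.k → X, ∏ w, ee d.α d.W y (δ w) ≤ 1 := by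
      have h3 := sum_wt (V := B × Fin d.k) (μ := fun _ => ee d.α d.W y)
      unfold wt at h3
      rw [h3]
      refine Finset.prod_le_one (fun _ _ => sum_nonneg fun ξ _ => d.K.ee0 y ξ) fun _ _ => ?_
      by_cases hy : dd d.α d.W y = 0
      · have : ∀ ξ, ee d.α d.W y ξ = 0 := fun ξ => by simp [ee, hy]
        simp [this]
      · exact (Ker.ee1 hy).le
    refine mul_le_of_le_one_right ?_ h2
    exact mul_nonneg (mul_nonneg (d.K.c0 y) (prod_nonneg fun _ _ => d.K.W0 _ _))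
      (mul_nonneg (prod_nonneg fun _ _ => d.K.a0 _) (prod_nonneg fun _ _ =>
        sum_nonneg fun _ _ => mul_nonneg (d.K.c0 _) (prod_nonneg fun _ _ => d.K.W0 _ _)))
  refine (Finset.sum_le_sum fun y _ => h1 y).trans (le_of_eq ?_)
  unfold tt
  rw [Finset.sum_comm]
  refine Finset.sum_congr rfl fun x _ => ?_
  rw [← Finset.mul_prod_erase univ _ (mem_univ d.b0), ← Finset.sum_mul]
  ring

omit hN in
theorem wt_split (y : Y) (x : A ⊕ (B × Fin d.k) → X) :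
    wt (d.mu y) x = (∏ a ∈ d.F, d.α (x (Sum.inl a))) *
      (∏ i : ↥(univ \ d.F), ee d.α d.W y (x (Sum.inl i.1))) *
      ∏ w : B × Fin d.k, ee d.α d.W y (x (Sum.inr w)) := by
  unfold wt
  rw [Fintype.prod_sum_type]
  congr 1
  rw [Finset.prod_coe_sort (univ \ d.F) (fun i => ee d.α d.W y (x (Sum.inl i))), mul_comm,
    ← Finset.prod_sdiff (Finset.subset_univ d.F)]
  congr 1
  · refine Finset.prod_congr rfl fun i hi => ?_
    rw [d.mu_not_mem (Finset.mem_sdiff.1 hi).2]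
  · refine Finset.prod_congr rfl fun i hi => ?_
    rw [d.mu_mem hi]

omit hN in
theorem fb_pos {y : Y} {x : A ⊕ (B × Fin d.k) → X} (h : d.Pi y x ≠ 0) (b : B) :
    0 < d.fb b x := by
  by_cases hb : ∃ a ∈ d.F, a ∈ d.N b
  · obtain ⟨a, haF, hab⟩ := hb
    have hP := d.supp_P h haF hab
    unfold Pk1 at hP
    obtain ⟨z, _, hz⟩ := Finset.exists_ne_zero_of_sum_ne_zero hP
    refine d.K.FFpos (y := z) (fun e => hz (by rw [e]; ring)) fun i => ?_
    by_cases hi : i.1 = a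
    · rw [hi]
      exact right_ne_zero_of_mul hz
    · obtain ⟨j, hj⟩ := d.cover a haF b hab i.1 i.2 hi
      rw [← hj]
      exact Finset.prod_ne_zero_iff.1 (right_ne_zero_of_mul (left_ne_zero_of_mul hz)) j
        (mem_univ j)
  · refine d.K.FFpos (d.supp_m h) fun i => d.supp_ee h fun hi => hb ⟨i.1, hi, i.2⟩

omit hN in
theorem term0 (y : Y) (x : A ⊕ (B × Fin d.k) → X) : 0 ≤ d.term y x :=
  mul_nonneg (mul_nonneg (mul_nonneg (d.K.c0 y) (prod_nonneg fun _ _ => d.K.W0 _ _))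
    (mul_nonneg (prod_nonneg fun _ _ => d.K.a0 _) (prod_nonneg fun _ _ =>
      sum_nonneg fun _ _ => mul_nonneg (d.K.c0 _) (prod_nonneg fun _ _ => d.K.W0 _ _))))
    (prod_nonneg fun _ _ => d.K.ee0 _ _)

/-- the test function -/
noncomputable def uu (y : Y) (x : A ⊕ (B × Fin d.k) → X) : ℝ :=
  (rd d.α d.c d.W y ^ (Fintype.card ↥(univ \ d.F) - 1) *
    pp d.α d.c d.W ^ Fintype.card ↥(univ \ d.F) *
    ∏ b ∈ univ.erase d.b0, (pp d.α d.c d.W ^ (d.N b).card * d.fb b x)) /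
    ∏ a ∈ d.F, d.ha a y x

omit hN in
theorem uu_le (hW : ∀ v, v ∉ d.F → v ∉ d.N d.b0 → ∀ x y, d.W x y ≤ 1) (y : Y)
    (x : A ⊕ (B × Fin d.k) → X) : d.Pi y x * d.uu y x ≤ d.term y x := by
  classical
  obtain ⟨v0, hv0⟩ := d.bl.hub
  have hoff : ∀ v ∈ d.N d.b0, v ∈ univ \ d.F := fun v hv =>
    Finset.mem_sdiff.2 ⟨mem_univ v, fun h => d.bl.off v h hv⟩
  have : Nonempty ↥(univ \ d.F) := ⟨⟨v0, hoff v0 hv0⟩⟩
  by_cases hP : d.Pi y x = 0
  · rw [hP, zero_mul]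
    exact d.term0 y x
  have hH : ∏ a ∈ d.F, d.ha a y x ≠ 0 :=
    (Finset.prod_pos fun a ha => d.supp_ha hP ha).ne'
  have hst := d.K.star (fun i : ↥(univ \ d.F) => x (Sum.inl i.1)) y
  have hw := d.wt_split y x
  have hal : (∏ i : A, d.α (x (Sum.inl i))) = (∏ i : ↥(univ \ d.F), d.α (x (Sum.inl i.1))) *
      ∏ a ∈ d.F, d.α (x (Sum.inl a)) := by
    rw [Finset.prod_coe_sort (univ \ d.F) (fun i => d.α (x (Sum.inl i))),
      Finset.prod_sdiff (Finset.subset_univ d.F)]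
  have hWW : ∏ i : ↥(univ \ d.F), d.W (x (Sum.inl i.1)) y
      ≤ ∏ i ∈ d.N d.b0, d.W (x (Sum.inl i)) y := by
    rw [Finset.prod_coe_sort (univ \ d.F) (fun i => d.W (x (Sum.inl i)) y),
      ← Finset.prod_sdiff (show d.N d.b0 ⊆ univ \ d.F from hoff)]
    refine mul_le_of_le_one_left (prod_nonneg fun _ _ => d.K.W0 _ _) ?_
    refine Finset.prod_le_one (fun _ _ => d.K.W0 _ _) fun i hi => ?_
    rw [Finset.mem_sdiff, Finset.mem_sdiff] at hi
    exact hW i hi.1.2 hi.2 _ _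
  have hp := pow_ne_zero (Fintype.card ↥(univ \ d.F)) d.K.p0.ne'
  set Q := ∏ b ∈ univ.erase d.b0, (pp d.α d.c d.W ^ (d.N b).card * d.fb b x) with hQ
  have hQ0 : 0 ≤ Q := prod_nonneg fun _ _ => mul_nonneg (pow_nonneg d.K.p0.le _) (d.K.FF0 _)
  have e1 : d.term y x = (d.c y * ∏ i ∈ d.N d.b0, d.W (x (Sum.inl i)) y) *
      (((∏ i : ↥(univ \ d.F), d.α (x (Sum.inl i.1))) * ∏ a ∈ d.F, d.α (x (Sum.inl a))) * Q) *
      ∏ w : B × Fin d.k, ee d.α d.W y (x (Sum.inr w)) := by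
    unfold term
    rw [hal, hQ]
    congr 3
    exact Finset.prod_congr rfl fun b _ => d.fb_eq b x
  set E := ∏ i : ↥(univ \ d.F), ee d.α d.W y (x (Sum.inl i.1))
  set AA := ∏ i : ↥(univ \ d.F), d.α (x (Sum.inl i.1))
  set FA := ∏ a ∈ d.F, d.α (x (Sum.inl a))
  set DU := ∏ w : B × Fin d.k, ee d.α d.W y (x (Sum.inr w))
  set WW := ∏ i : ↥(univ \ d.F), d.W (x (Sum.inl i.1)) y
  set W0 := ∏ i ∈ d.N d.b0, d.W (x (Sum.inl i)) y
  set H := ∏ a ∈ d.F, d.ha a y x with hHd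
  set n := Fintype.card ↥(univ \ d.F) with hnd
  have e2 : d.Pi y x * d.uu y x
      = (mm d.α d.c d.W y * rd d.α d.c d.W y ^ (n - 1) * E) * pp d.α d.c d.W ^ n *
        (FA * DU * Q) := by
    unfold Pi uu
    rw [hw, ← hHd, ← hQ, ← hnd]
    field_simp
  rw [e2, hst, div_mul_cancel₀ _ hp, e1]
  have hAA : 0 ≤ AA := prod_nonneg fun _ _ => d.K.a0 _
  have hFA : 0 ≤ FA := prod_nonneg fun _ _ => d.K.a0 _
  have hDU : 0 ≤ DU := prod_nonneg fun _ _ => d.K.ee0 _ _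
  have hc := d.K.c0 y
  have h3 : AA * (d.c y * WW) * (FA * DU * Q) = (AA * d.c y * FA * DU * Q) * WW := by ring
  have h4 : d.c y * W0 * (AA * FA * Q) * DU = (AA * d.c y * FA * DU * Q) * W0 := by ring
  rw [h3, h4]
  exact mul_le_mul_of_nonneg_left hWW (by positivity)

theorem G0 (hW : ∀ v, v ∉ d.F → v ∉ d.N d.b0 → ∀ x y, d.W x y ≤ 1) :
    0 < tt d.α d.c d.W d.N ∧
    ((∑ b, ((d.N b).card : ℝ)) + Fintype.card A - d.F.card - (d.N d.b0).card) *
      Real.log (pp d.α d.c d.W) + ∑ b ∈ univ.erase d.b0, d.EE (fun _ x => Real.log (d.fb b x))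
      - ∑ a ∈ d.F, d.L a ≤ Real.log (tt d.α d.c d.W d.N) := by
  classical
  obtain ⟨v0, hv0⟩ := d.bl.hub
  have hoff : v0 ∈ univ \ d.F :=
    Finset.mem_sdiff.2 ⟨mem_univ v0, fun h => d.bl.off v0 h hv0⟩
  have : Nonempty ↥(univ \ d.F) := ⟨⟨v0, hoff⟩⟩
  have hn1 : 1 ≤ Fintype.card ↥(univ \ d.F) := Fintype.card_pos
  have hnc : (Fintype.card ↥(univ \ d.F) : ℝ) = Fintype.card A - d.F.card := by
    rw [Fintype.card_coe, Finset.card_sdiff_of_subset (Finset.subset_univ _), card_univ,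
      Nat.cast_sub (Finset.card_le_univ _)]
  have hp := d.K.p0
  have hQp : ∀ y x, d.Pi y x ≠ 0 → ∀ b, 0 < pp d.α d.c d.W ^ (d.N b).card * d.fb b x :=
    fun y x h b => mul_pos (pow_pos hp _) (d.fb_pos h b)
  have hHp : ∀ y x, d.Pi y x ≠ 0 → 0 < ∏ a ∈ d.F, d.ha a y x := fun y x h =>
    Finset.prod_pos fun a ha => d.supp_ha h ha
  have hup : ∀ y x, d.Pi y x ≠ 0 → 0 < d.uu y x := by
    intro y x h
    refine div_pos (mul_pos (mul_pos (pow_pos (d.K.rpos (d.supp_m h)) _) (pow_pos hp _))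
      (Finset.prod_pos fun b _ => hQp y x h b)) (hHp y x h)
  have hJ := d.EE_jensen hN hup
  have hle : d.EE d.uu ≤ tt d.α d.c d.W d.N := by
    refine le_trans ?_ d.sum_term
    unfold EE
    exact Finset.sum_le_sum fun y _ => Finset.sum_le_sum fun x _ => d.uu_le hW y x
  refine ⟨hJ.1.trans_le hle, ?_⟩
  refine le_trans ?_ (hJ.2.trans (Real.log_le_log hJ.1 hle))
  set n := Fintype.card ↥(univ \ d.F) with hn
  have hconst : ∀ r : ℝ, d.EE (fun _ _ => r) = r := by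
    intro r
    rw [d.EE_y hN (fun _ => r), ← Finset.sum_mul, d.K.mm1, one_mul]
  have hlog : d.EE (fun y x => Real.log (d.uu y x))
      = ((n - 1 : ℕ) : ℝ) * d.EE (fun y _ => Real.log (rd d.α d.c d.W y)) +
        d.EE (fun _ _ => (n : ℝ) * Real.log (pp d.α d.c d.W)) +
        (∑ b ∈ univ.erase d.b0, d.EE (fun _ x => ((d.N b).card : ℝ) *
          Real.log (pp d.α d.c d.W) + Real.log (d.fb b x))) - ∑ a ∈ d.F, d.L a := by
    unfold L
    rw [← EE_sum, ← EE_sum, ← EE_mul, ← EE_add, ← EE_add, ← EE_sub]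
    refine d.EE_congr fun y x h => ?_
    have h1 := pow_pos (d.K.rpos (d.supp_m h)) (n - 1)
    have h2 : 0 < pp d.α d.c d.W ^ n := pow_pos hp _
    have h3 : ∏ b ∈ univ.erase d.b0, (pp d.α d.c d.W ^ (d.N b).card * d.fb b x) ≠ 0 :=
      (Finset.prod_pos fun b _ => hQp y x h b).ne'
    unfold uu
    rw [Real.log_div (mul_ne_zero (mul_pos h1 h2).ne' h3) (hHp y x h).ne',
      Real.log_mul (mul_pos h1 h2).ne' h3, Real.log_mul h1.ne' h2.ne', Real.log_pow,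
      Real.log_pow, Real.log_prod fun b _ => (hQp y x h b).ne',
      Real.log_prod fun a ha => (d.supp_ha h ha).ne']
    congr 2
    refine Finset.sum_congr rfl fun b _ => ?_
    rw [Real.log_mul (pow_pos hp _).ne' (d.fb_pos h b).ne', Real.log_pow]
  have hsum : ∑ b ∈ univ.erase d.b0, d.EE (fun _ x => ((d.N b).card : ℝ) *
      Real.log (pp d.α d.c d.W) + Real.log (d.fb b x))
      = (∑ b, ((d.N b).card : ℝ) - (d.N d.b0).card) * Real.log (pp d.α d.c d.W) +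
        ∑ b ∈ univ.erase d.b0, d.EE (fun _ x => Real.log (d.fb b x)) := by
    rw [Finset.sum_congr rfl fun b _ => d.EE_add _ _, Finset.sum_add_distrib]
    congr 1
    rw [Finset.sum_congr rfl fun b _ => hconst _, ← Finset.sum_mul,
      ← Finset.add_sum_erase univ (fun b => ((d.N b).card : ℝ)) (mem_univ d.b0)]
    ring
  have heta : 0 ≤ ((n - 1 : ℕ) : ℝ) * d.EE (fun y _ => Real.log (rd d.α d.c d.W y)) := by
    rw [d.EE_y hN (fun y => Real.log (rd d.α d.c d.W y))]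
    exact mul_nonneg (Nat.cast_nonneg _) d.K.eta_nonneg
  rw [hlog, hsum, hconst, hnc]
  linarith

end

end Dat

end Vale.Agent.P050.R2.H901
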